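import Vale.Agent.P290.H362.Asm
import Vale.Agent.P290.H610.TwGeo
import Vale.Agent.P290.H143.ExistsEll
import Vale.Agent.P290.H95.Goal

/-!
# P290, ASM (helper362): the final theorem from its last inputs
-/

open Set Filter Topology
open scoped Manifold ContDiff

namespace Vale.Agent.P290.H362

open Vale.Agent.P267 Vale.Agent.P267.H757 Vale.Agent.P290.H342 Vale.Agent.P290.H445
open Vale.Agent.P290.H867 Vale.Agent.P290.H610
open Vale.Agent.P290.K (P1)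

/-- the record `Tw` from its lattice half, with independent normalisation of the parameter -/
noncomputable def mkTw' {X : All.K3} {π : X.X → sphere.C} (D : CutData X.volForm π)
    (hπ : MDifferentiable 𝓘(ℂ, C2) 𝓘(ℂ) π) (b b' : ℂ) {G : Geo X} {e : G.T.H}
    (hreg : ∀ x, π x ∈ D.disc → ¬ All.Critical π x) (G' : Geo (Xb D hπ b))
    (τ : G.T.H ≃+ G'.T.H) (isom : ∀ x y, G'.T.B (τ x) (τ y) = G.T.B x y)
    (per : ∀ x, G'.σ (τ x) = G.σ x + b' * (G.T.B x e : ℤ))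
    (cl_eq : ∀ N : X.X → ℝ, H757.IsNormFn FL.C2 N →
      (∃ V, IsOpen V ∧ π ⁻¹' D.core ⊆ V ∧ ∀ x ∈ V, N x = 1) →
      G'.T.cl (fun y => N ((ib D hπ b).symm y)) = τ (G.T.cl N)) :
    Tw G e π D.core b' where
  Y := Xb D hπ b
  ι := ib D hπ b
  smooth := contMDiff_ib D hπ b
  smooth_symm := contMDiff_ib_symm D hπ b
  hol _ hx := md_fl_of_hol (hol_ib D hπ b hx)
  hol_symm x hx := md_fl_of_hol (hol_ib_symm D hπ b (y := ib D hπ b x) hx)
  ρ := rhob D hπ b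
  ρ_ι _ := rfl
  ρ_hol := rhob_hol D hπ b
  noncrit _ hy := rhob_noncrit D hπ b hreg hy
  tw := twb D hπ b
  tw_h _ hx := twb_h D hπ b hx
  tw_ρ _ _ h := h
  tw_crit _ h := h
  G' := G'
  τ := τ
  isom := isom
  per := per
  cl_eq := cl_eq

/-- The lattice half of the twists of `X` along `π : X → ℙ¹` of class `e`. -/
def TwLat {X : All.K3} (G : Geo X) (e : G.T.H) (π : X.X → sphere.C) : Prop :=
  ∀ (D : CutData X.volForm π) (hπ : MDifferentiable 𝓘(ℂ, C2) 𝓘(ℂ) π) (b' : ℂ),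
    (∀ x, π x ∈ D.disc → ¬ All.Critical π x) →
    ∃ (b : ℂ) (G' : Geo (Xb D hπ b)) (τ : G.T.H ≃+ G'.T.H),
      (∀ x y, G'.T.B (τ x) (τ y) = G.T.B x y) ∧
      (∀ x, G'.σ (τ x) = G.σ x + b' * (G.T.B x e : ℤ)) ∧
      ∀ N : X.X → ℝ, IsNormFn FL.C2 N →
        (∃ V, IsOpen V ∧ π ⁻¹' D.core ⊆ V ∧ ∀ x ∈ V, N x = 1) →
        G'.T.cl (fun y => N ((ib D hπ b).symm y)) = τ (G.T.cl N)

/-- **The final theorem from its last inputs.** -/
theorem isOka_of_elliptic (X : All.K3) (hX : H95.Elliptic X) (G : Geo X) (hL : IsLat G)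
    (hneg : H143.NegInput G) (hind : ∀ e c : G.T.H, Ell G.T e → G.σ e = 0 → G.T.B c e = 1 → Indep G e)
    (hTw : ∀ (e : G.T.H) (A : Ell G.T e), G.σ e = 0 → TwLat G e A.π) : All.IsOka X.X := by
  obtain ⟨C, π, hπ, hnc⟩ := hX
  obtain ⟨e, c, ⟨A⟩, hσe, hc, neg⟩ := H143.exists_ell G hL hneg C π hπ hnc
  refine isOka_of_geo X G hL e c A hσe hc neg (hind e c A hσe hc) fun F hF => ?_
  have hA : ∀ x, All.HolC (C := sphere.C) A.π x := fun x => holC_rho A.P A.bpf x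
  obtain ⟨D, hreg, hdisj, hcl⟩ := H610.exists_cut hA hF
  have i3 : IsManifold 𝓘(ℂ) 1 sphere.C := manifoldRS _
  have i4 : IsManifold 𝓘(ℂ, C2) 1 X.X := manifoldK3 _
  have hπ' : MDifferentiable 𝓘(ℂ, C2) 𝓘(ℂ) (A.π : X.X → sphere.C) := fun x => (hA x).md
  refine ⟨D.core, hcl, fun s hs h => ?_, fun b' => ?_⟩
  · exact Set.disjoint_left.1 hdisj (D.core_sub_disc h) hs
  · obtain ⟨b, G', τ, h1, h2, h3⟩ := hTw e A hσe D hπ' b' hreg
    exact ⟨mkTw' D hπ' b b' hreg G' τ h1 h2 h3⟩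

end Vale.Agent.P290.H362
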