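import Vale.Agent.P290.H362.Trans
import Vale.Agent.P290.H867.OmB
import Vale.Agent.P267.H365.Curv

/-!
# P290, ASM (helper362): the class of helper867's norm function of a fibre
-/

open Set Filter Topology
open scoped Manifold ContDiff

namespace Vale.Agent.P290.H362

open Vale.Agent.P267 Vale.Agent.P267.H757 Vale.Agent.P290.H342 Vale.Agent.P290.H445
open Vale.Agent.P290.H867
open Vale.Agent.P290.K (P1)

theorem atlas_symm {t : OpenPartialHomeomorph P1 ℂ} (ht : t ∈ atlas ℂ P1) :
    (∀ z, t.symm z = P1.mk z 1) ∨ (∀ z, t.symm z = P1.mk 1 z) := by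
  rcases ht with rfl | rfl
  · left
    intro z
    rw [P1.ch0_symm, P1.mk_of_ne one_ne_zero, div_one]
  · right
    intro z
    exact P1.ch1_symm z

/-- a norm function is locally `exp (-φ)` away from its zeros -/
theorem locRep_of_ne {Z : All.K3} {N : Z.X → ℝ} (hN : IsNormFn FL.C2 N) {x : Z.X} (hx : N x ≠ 0) :
    ∃ (U : Set Z.X) (φ : Z.X → ℝ), x ∈ U ∧ LocRep FL.C2 N U (fun _ => 1) φ := by
  obtain ⟨U, g, φ, hxU, h⟩ := hN x
  have hg : g x ≠ 0 := by
    intro h0
    apply hx
    rw [h.eq x hxU, h0]; simp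
  have hO : IsOpen (U ∩ g ⁻¹' {0}ᶜ) := h.hol.continuousOn.isOpen_inter_preimage h.isOpen
    isOpen_compl_singleton
  have hinv : MDifferentiableOn 𝓘(ℂ, FL.C2) 𝓘(ℂ) (fun y => (g y)⁻¹) (U ∩ g ⁻¹' {0}ᶜ) := by
    intro y hy
    have h1 : DifferentiableAt ℂ (fun z : ℂ => z⁻¹) (g y) := differentiableAt_inv hy.2
    exact h1.mdifferentiableAt.comp_mdifferentiableWithinAt y
      ((h.hol y hy.1).mono inter_subset_left)
  exact ⟨U ∩ g ⁻¹' {0}ᶜ, _, ⟨hxU, hg⟩, H365.LocRep.unit h hO inter_subset_left hinv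
    (fun y hy => inv_ne_zero hy.2) (fun y hy => (inv_mul_cancel₀ hy.2).symm)⟩

section

variable {X : All.K3} {G : Geo X} {e : G.T.H} (A : Ell G.T e)

/-- the map of the pencil is nowhere locally constant -/
theorem Ell.frequently_ne (c : P1) (y : X.X) : ∃ᶠ z in 𝓝 y, A.π z ≠ c := by
  intro h
  have h1 : {x | fibN A.P c x = 0} ∈ 𝓝 y := by
    filter_upwards [h] with z hz
    exact (A.fibN_zero c z).2 (not_not.1 hz)
  have h2 := (fibN_nf A.P c).interior_zero
  have h3 : y ∈ interior {x | fibN A.P c x = 0} := mem_interior_iff_mem_nhds.2 h1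
  rw [h2] at h3
  exact h3

variable (D : CutData X.volForm (A.π : X.X → H610.sphere.C))

theorem exists_locRep (hπ : MDifferentiable 𝓘(ℂ, C2) 𝓘(ℂ) (A.π : X.X → H610.sphere.C)) (x : X.X) :
    ∃ (U : Set X.X) (g : X.X → ℂ) (φ φ' : X.X → ℝ), x ∈ U ∧
      LocRep FL.C2 (nD D) U g φ ∧ LocRep FL.C2 (fibN A.P (D.t.symm D.c₀)) U g φ' := by
  have hnl : ∀ (c : H610.sphere.C) (y : X.X), ∃ᶠ z in 𝓝 y, A.π z ≠ c := A.frequently_ne
  have hDF := discFn D hπ hnl
  set s₀ : P1 := D.t.symm D.c₀ with hs₀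
  have hc₀ : D.c₀ ∈ D.t.target := D.hb (Metric.mem_closedBall_self (by linarith [D.hr]))
  have hs₀s : s₀ ∈ D.t.source := D.t.map_target hc₀
  have hts₀ : D.t s₀ = D.c₀ := D.t.right_inv hc₀
  have hs₀d : s₀ ∈ D.disc := by
    refine ⟨hs₀s, ?_⟩
    rw [mem_preimage, hts₀]
    exact Metric.mem_ball_self (by linarith [D.hr])
  by_cases hx : A.π x = s₀
  · -- the fibre
    have hxW : x ∈ WD D := by
      show A.π x ∈ D.disc
      rw [hx]; exact hs₀d
    have hxn : dist (hD D x) D.c₀ < D.r / 2 := by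
      have : hD D x = D.c₀ := by
        show D.t (A.π x) = D.c₀
        rw [hx, hts₀]
      rw [this, dist_self]
      linarith [D.hr]
    have hnear := hDF.locRep_near D.hr
    obtain ⟨U, g0, g1, φ, hxU, h⟩ := A.P.loc x
    have hπU : ∀ y ∈ U, A.π y = P1.mk (g0 y) (g1 y) := fun y hy => rho_eq A.P A.bpf h hy
    have hneU : ∀ y ∈ U, g0 y ≠ 0 ∨ g1 y ≠ 0 := fun y hy => A.bpf.ne h hy
    have hrep := fibN_rep A.P h s₀
    have hh := mk_hom s₀
    have hhn := hom_ne s₀
    set a := (hom s₀).1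
    set b := (hom s₀).2
    rcases atlas_symm D.ht with ht | ht
    · -- the affine chart
      have hb : a = D.c₀ * b := by
        have h1 : P1.mk a b = P1.mk D.c₀ 1 := by rw [hh, hs₀, ht]
        rw [P1.mk_eq_iff hhn (Or.inr one_ne_zero)] at h1
        linear_combination h1
      have hb0 : b ≠ 0 := by
        intro h0
        rw [h0, mul_zero] at hb
        rcases hhn with h1 | h1
        · exact h1 hb
        · exact h1 h0
      set W := (WD D ∩ {y | dist (hD D y) D.c₀ < D.r / 2}) ∩ (U ∩ g1 ⁻¹' {0}ᶜ) with hW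
      have hWO : IsOpen W := hnear.isOpen.inter
        (h.hol1.continuousOn.isOpen_inter_preimage h.isOpen isOpen_compl_singleton)
      have hval : ∀ y ∈ U, y ∈ WD D → hD D y * g1 y = g0 y := by
        intro y hy hyW
        have h1 : D.t.symm (hD D y) = A.π y := D.t.left_inv hyW.1
        rw [ht, hπU y hy, P1.mk_eq_iff (Or.inr one_ne_zero) (hneU y hy)] at h1
        linear_combination h1
      have hg1 : ∀ y ∈ U, y ∈ WD D → g1 y ≠ 0 := by
        intro y hy hyW h0
        have h1 := hval y hy hyW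
        rw [h0, mul_zero] at h1
        rcases hneU y hy with h2 | h2
        · exact h2 h1.symm
        · exact h2 h0
      have hxW' : x ∈ W := ⟨⟨hxW, hxn⟩, hxU, hg1 x hxU hxW⟩
      have hw : MDifferentiableOn 𝓘(ℂ, FL.C2) 𝓘(ℂ) (fun y => (b * g1 y)⁻¹) W := by
        intro y hy
        have h1 : DifferentiableAt ℂ (fun z : ℂ => (b * z)⁻¹) (g1 y) :=
          (differentiableAt_id.const_mul b).inv (mul_ne_zero hb0 hy.2.2)
        exact h1.mdifferentiableAt.comp_mdifferentiableWithinAt y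
          ((h.hol1 y hy.2.1).mono (inter_subset_right.trans inter_subset_left))
      refine ⟨W, fun y => hD D y - D.c₀, _, _, hxW',
        hnear.mono hWO inter_subset_left, H365.LocRep.unit hrep hWO
          (inter_subset_right.trans inter_subset_left) hw
          (fun y hy => inv_ne_zero (mul_ne_zero hb0 hy.2.2)) fun y hy => ?_⟩
      have h1 := hval y hy.2.1 hy.1.1
      have h2 : g1 y ≠ 0 := hy.2.2
      rw [← h1, hb]
      field_simp
      ring
    · -- the chart at infinity
      have hb : b = D.c₀ * a := by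
        have h1 : P1.mk a b = P1.mk 1 D.c₀ := by rw [hh, hs₀, ht]
        rw [P1.mk_eq_iff hhn (Or.inl one_ne_zero)] at h1
        linear_combination -h1
      have hb0 : a ≠ 0 := by
        intro h0
        rw [h0, mul_zero] at hb
        rcases hhn with h1 | h1
        · exact h1 h0
        · exact h1 hb
      set W := (WD D ∩ {y | dist (hD D y) D.c₀ < D.r / 2}) ∩ (U ∩ g0 ⁻¹' {0}ᶜ) with hW
      have hWO : IsOpen W := hnear.isOpen.inter
        (h.hol0.continuousOn.isOpen_inter_preimage h.isOpen isOpen_compl_singleton)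
      have hval : ∀ y ∈ U, y ∈ WD D → hD D y * g0 y = g1 y := by
        intro y hy hyW
        have h1 : D.t.symm (hD D y) = A.π y := D.t.left_inv hyW.1
        rw [ht, hπU y hy, P1.mk_eq_iff (Or.inl one_ne_zero) (hneU y hy)] at h1
        linear_combination -h1
      have hg0 : ∀ y ∈ U, y ∈ WD D → g0 y ≠ 0 := by
        intro y hy hyW h0
        have h1 := hval y hy hyW
        rw [h0, mul_zero] at h1
        rcases hneU y hy with h2 | h2
        · exact h2 h0
        · exact h2 h1.symm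
      have hxW' : x ∈ W := ⟨⟨hxW, hxn⟩, hxU, hg0 x hxU hxW⟩
      have hw : MDifferentiableOn 𝓘(ℂ, FL.C2) 𝓘(ℂ) (fun y => (-(a * g0 y))⁻¹) W := by
        intro y hy
        have h1 : DifferentiableAt ℂ (fun z : ℂ => (-(a * z))⁻¹) (g0 y) :=
          ((differentiableAt_id.const_mul a).neg).inv (neg_ne_zero.2 (mul_ne_zero hb0 hy.2.2))
        exact h1.mdifferentiableAt.comp_mdifferentiableWithinAt y
          ((h.hol0 y hy.2.1).mono (inter_subset_right.trans inter_subset_left))
      refine ⟨W, fun y => hD D y - D.c₀, _, _, hxW',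
        hnear.mono hWO inter_subset_left, H365.LocRep.unit hrep hWO
          (inter_subset_right.trans inter_subset_left) hw
          (fun y hy => inv_ne_zero (neg_ne_zero.2 (mul_ne_zero hb0 hy.2.2))) fun y hy => ?_⟩
      have h1 := hval y hy.2.1 hy.1.1
      have h2 : g0 y ≠ 0 := hy.2.2
      rw [← h1, hb]
      field_simp
      ring
  · -- away from the fibre
    have hfar := hDF.locRep_far D.hr
    have hxf : x ∈ {x | x ∈ WD D → hD D x ≠ D.c₀} := by
      intro hxW h0
      apply hx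
      rw [hs₀, ← h0]
      exact (D.t.left_inv hxW.1).symm
    obtain ⟨U, φ, hxU, h⟩ := locRep_of_ne (fibN_nf A.P s₀) (x := x) (fun h => hx ((A.fibN_zero _ _).1 h))
    exact ⟨{x | x ∈ WD D → hD D x ≠ D.c₀} ∩ U, _, _, _, ⟨hxf, hxU⟩, hfar.mono (hfar.isOpen.inter h.isOpen) inter_subset_left,
      h.mono (hfar.isOpen.inter h.isOpen) inter_subset_right⟩

/-- **The class of the norm function of a fibre.** -/
theorem cl_nD (hπ : MDifferentiable 𝓘(ℂ, C2) 𝓘(ℂ) (A.π : X.X → H610.sphere.C)) :
    G.T.cl (nD D) = e := by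
  obtain ⟨u, hu, h, -⟩ := H365.exists_factor (fun x => exists_locRep A D hπ x)
  have h1 : nD D = fun x => Real.exp (u x) * fibN A.P (D.t.symm D.c₀) x := by
    funext x; rw [h x, mul_comm]
  rw [h1, G.T.cl_exp_mul (fibN_nf A.P _) hu, fibN_cl]

end

end Vale.Agent.P290.H362
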