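import Vale.Agent.P290.H362.F2Per
import Vale.Agent.P290.H342.LatInst
import Vale.Agent.P290.H416.K3Iso
import Vale.Agent.P290.H722.Per
import Vale.Agent.P290.H805.Baire

/-!
# P290, F2-ASM (helper362): elliptic members are dense in a family of K3 surfaces

The assembly of Phase 2 from: the smooth trivialisation `SmTriv` (helper470), the holomorphy of the
periods (helper722), the Kodaira-Spencer argument `KSStmt` (helper867), the isotropic class
criterion (helper416), the lattice of an elliptic K3 surface (helper445).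
-/

set_option linter.unusedSectionVars false
set_option linter.unusedVariables false

open scoped Manifold ContDiff ComplexConjugate Topology
open Set Filter

noncomputable section

namespace Vale.Agent.P290.H362

open Vale.Agent.P267.FL Vale.Agent.P267.BlockC Vale.Agent.P267.RR Vale.Agent.P267.H332
open Vale.Agent.P267.H757 Vale.Agent.P267.H469 Vale.Agent.P290.H342 Vale.Agent.P290.H445
open Vale.Agent.P290.H416 Vale.Agent.P290.H726 Vale.Agent.P290.H722 Vale.Agent.P290.H805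
open Vale.Agent.P290.H95 Vale.Agent.P290.H686

/-- Riemann-Roch, Serre duality and finiteness on all K3 surfaces -/
structure RRAll : Prop where
  fin : ∀ Z : All.K3, FiniteStmt Z.X
  serre : ∀ Z : All.K3, SerreStmt Z.X
  rr : ∀ Z : All.K3, RRStmt Z.X

/-- lattice data with an isotropic class and three positive classes -/
def LatP (X : All.K3) : Prop :=
  ∃ (N : ℕ) (U : UData X.X N), (∀ k, Even (U.B k k)) ∧ PosIso U.G

theorem LatP.trans {X Y : All.K3} (h : LatP X) (φ : X.X ≃ₜ Y.X) (hφ : IsDiffeo φ) : LatP Y := by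
  obtain ⟨N, U, h1, h2⟩ := h
  exact ⟨N, uTrans φ hφ U, h1, h2⟩

/-! ### the holomorphic two-form -/

section form

variable (Z : All.K3)

theorem pair_OmT_self : pair (OmT Z) (OmT Z) = 0 := by
  have h : (OmT Z).wedge (OmT Z) = fun _ => 0 := by
    funext x
    simp [TwoF.wedge, OmT]
  rw [pair, h]
  have h1 := pair_smul_left (Y := Z.X) intAx 0 (OmT_mem Z).1 (OmT_mem Z).1
  rw [zero_mul, pair, wedge_smul_left] at h1
  simp only [zero_mul] at h1
  exact h1

theorem pair_OmT_bar_pos : 0 < (pair (OmT Z) (OmT Z).bar).re := by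
  obtain ⟨g, hg⟩ := exists_isHerm Z.X
  by_contra hcon
  push Not at hcon
  exact OmL_ne Z ((calc0 hg).pos20 (OmL Z) rfl hcon)

variable {Z}

/-- a nonzero isotropic class with period zero -/
theorem elliptic_of_period (H : RRAll) {N : ℕ} (U : UData Z.X N) (hev : ∀ k, Even (U.B k k))
    {x : Fin N → ℤ} (hx : x ≠ 0) (hxx : U.B x x = 0) (hp : pair (OmT Z) (U.comb x) = 0) :
    Elliptic Z :=
  elliptic_of_isotropic (uGeo U (H.fin Z) (H.serre Z) (H.rr Z)) (h02 (H.serre Z)) hev hx hxx hp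

/-- the lattice of an elliptic K3 surface has an isotropic class and three positive classes -/
theorem latP_of_elliptic (H : RRAll) (hX : Elliptic Z)
    (hU : ∃ (N : ℕ) (U : UData Z.X N), ∀ k, Even (U.B k k)) : LatP Z := by
  obtain ⟨N, U, hev⟩ := hU
  obtain ⟨C, π, hπ, hnc⟩ := hX
  obtain ⟨e, he, hee, hp⟩ : ∃ e : Fin N → ℤ, e ≠ 0 ∧ U.B e e = 0 ∧
      pair (OmT Z) (U.comb e) = 0 := by
    obtain ⟨e, c, ⟨A⟩, hσ, hc, -⟩ := H143.exists_ell (geo U (H.fin Z) (H.serre Z) (H.rr Z))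
      (isLat_geo U (H.fin Z) (H.serre Z) (H.rr Z) hev)
      (H722.negInput (uGeo U (H.fin Z) (H.serre Z) (H.rr Z)) (h02 (H.serre Z))) C π hπ hnc
    exact ⟨e, A.ne, A.sq, hσ⟩
  have hL := H342.lbFacts Z.X
  refine ⟨N, U, hev, ⟨e, he, by rw [bil_B]; exact hee⟩, ?_⟩
  refine H103.exists_pos U.G U.G_symm (fun x hx => U.nondeg x fun y => by
    rw [← bil_B]; exact hx y) e he (by rw [bil_B]; exact hee) (pv U (OmT Z)) ?_ ?_ ?_
  · rw [bil_pv U hL (OmT_mem Z) (OmT_mem Z), pair_OmT_self, mul_zero]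
  · rw [bil_pv_conj U hL (OmT_mem Z)]
    have h1 : (4 * (Real.pi : ℂ) ^ 2) = ((4 * Real.pi ^ 2 : ℝ) : ℂ) := by push_cast; ring
    rw [h1, Complex.re_ofReal_mul]
    have := Real.pi_pos
    have := pair_OmT_bar_pos Z
    positivity
  · rw [← pair_comb_pv U hL (OmT_mem Z)]
    exact hp

end form

/-! ### families -/

section family

variable {V : Type} [NormedAddCommGroup V] [NormedSpace ℂ V] {D : Set V}
  {E : Type} [TopologicalSpace E] [T2Space E] {𝓕 : K3Family V D E} {t₀ : D}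

/-- **The Kodaira-Spencer input** (helper867): if the derivative of the periods in the direction `v`
is proportional to their value, then the family is infinitesimally trivial in the direction `v`. -/
def KS (S : SmTriv 𝓕 t₀) : Prop :=
  ∀ (v : V) (a : ℂ), ExactTwo (dT S.T t₀ v - a • OmT (𝓕.k3 t₀)) → InfTrivial 𝓕.F t₀ v

theorem TS_eq (S : SmTriv 𝓕 t₀) {t : V} (ht : t ∈ S.N) :
    S.T t = pb2 (S.homeo t ht) (OmT (𝓕.k3 ⟨t, S.sub ht⟩)) := S.T_eq ht

theorem pair_TS_self (S : SmTriv 𝓕 t₀) {t : V} (ht : t ∈ S.N) : pair (S.T t) (S.T t) = 0 := by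
  have h := OmT_mem (𝓕.k3 ⟨t, S.sub ht⟩)
  rw [TS_eq S ht, pair_pb2 _ (S.diffeo t ht) h.1 h.1, pair_OmT_self]

theorem pair_TS_bar (S : SmTriv 𝓕 t₀) {t : V} (ht : t ∈ S.N) :
    0 < (pair (S.T t) (S.T t).bar).re := by
  have h := OmT_mem (𝓕.k3 ⟨t, S.sub ht⟩)
  rw [TS_eq S ht, ← pb2_bar, pair_pb2 _ (S.diffeo t ht) h.1 (bar_mem h).1]
  exact pair_OmT_bar_pos _

theorem TS_base (S : SmTriv 𝓕 t₀) : S.T t₀ = OmT (𝓕.k3 t₀) := by
  have h1 : ∀ x : (𝓕.k3 t₀).X, S.homeo t₀ S.mem x = x := by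
    intro x
    have h2 := (S.homeo_val t₀ S.mem x).trans (S.Φ₀ x)
    exact Fib.ext h2
  rw [TS_eq S S.mem]
  have h3 : (S.homeo t₀ S.mem : (𝓕.k3 t₀).X → (𝓕.k3 t₀).X) = fun x => x := funext h1
  have h4 : pb2 (S.homeo t₀ S.mem : (𝓕.k3 t₀).X → (𝓕.k3 t₀).X) (OmT (𝓕.k3 t₀)) =
      OmT (𝓕.k3 t₀) := by
    rw [h3]; exact pb2_id _
  exact h4

/-- **Elliptic members accumulate at every member with nonzero Kodaira-Spencer class.** -/
theorem exists_elliptic (H : RRAll) (S : SmTriv 𝓕 t₀) (hKS : KS S) (hlat : LatP (𝓕.k3 t₀))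
    {v : V} (hv : ¬ InfTrivial 𝓕.F t₀ v) {W : Set V} (hW : W ∈ 𝓝 (t₀ : V)) :
    ∃ t : D, (t : V) ∈ W ∧ Elliptic (𝓕.k3 t) := by
  obtain ⟨N, U, hev, hG⟩ := hlat
  have hL := H342.lbFacts (𝓕.k3 t₀).X
  set γ : ℂ → V := fun z => (t₀ : V) + z • v with hγ
  have hγ0 : γ 0 = t₀ := by simp [hγ]
  have hγc : ContinuousAt γ 0 := by
    have : Continuous γ := continuous_const.add (continuous_id.smul continuous_const)
    exact this.continuousAt
  have hmem : ∀ᶠ z in 𝓝 (0 : ℂ), γ z ∈ S.N ∩ W := by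
    refine hγc.eventually ?_
    rw [hγ0]
    exact inter_mem (S.isOpen.mem_nhds S.mem) hW
  obtain ⟨ε, hε, hball⟩ := Metric.eventually_nhds_iff.1 hmem
  have hdγ : ∀ z, HasDerivAt γ v z := by
    intro z
    have h1 : HasDerivAt (fun z : ℂ => z • v) ((1 : ℂ) • v) z := (hasDerivAt_id z).smul_const v
    rw [one_smul] at h1
    exact h1.const_add _
  have hper : ∀ G ∈ HC (𝓕.k3 t₀).X, ∀ z, γ z ∈ S.N → HasDerivAt (fun z => pair (S.T (γ z)) G)
      (pair (dT S.T (γ z) v) G) z := by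
    intro G hG z hz
    obtain ⟨L, hL, hL2⟩ := S.hasFDerivAt_per hz hG
    rw [← hL2]
    exact hL.comp_hasDerivAt z (hdγ z)
  have hcur : ∀ i, (U.E i).L.curv ∈ HC (𝓕.k3 t₀).X := fun i =>
    mem_HC_iff.2 ⟨hL.smooth _, hL.closed _⟩
  obtain ⟨L, hLdef⟩ : ∃ L, L = dT S.T (t₀ : V) v := ⟨_, rfl⟩
  have hLm : L ∈ HC (𝓕.k3 t₀).X := by rw [hLdef]; exact S.mem_HC_dT S.mem v
  obtain ⟨z, hz, hTz, x, hx, hxx, hp⟩ := dens_form U hL hG (fun z => S.T (γ z))
    (hmem.mono fun z hz => S.mem_HC_T hz.1) (hmem.mono fun z hz => pair_TS_self S hz.1)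
    (by
      have := pair_TS_bar S (t := (t₀ : V)) S.mem
      rw [hγ0]
      exact this)
    (fun i => hmem.mono fun z hz => (hper _ (hcur i) z hz.1).differentiableAt)
    (by
      intro a
      by_contra hcon
      push Not at hcon
      refine hv (hKS v a ?_)
      rw [← hLdef]
      have hmem' : L - a • OmT (𝓕.k3 t₀) ∈ HC (𝓕.k3 t₀).X :=
        Submodule.sub_mem _ hLm (Submodule.smul_mem _ _ (OmT_mem _))
      refine exact_of_pv U hL hmem' ?_
      have h0 : ∀ i, pair (L - a • OmT (𝓕.k3 t₀)) (U.E i).L.curv = 0 := by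
        intro i
        have h1 := hcon i
        rw [(hper _ (hcur i) 0 (by rw [hγ0]; exact S.mem)).deriv, hγ0, TS_base, ← hLdef] at h1
        have h2 : L = (L - a • OmT (𝓕.k3 t₀)) + a • OmT (𝓕.k3 t₀) := by abel
        rw [h2, pair_add_left intAx hmem'.1 (TwoF_smooth_smul _ (OmT_mem _).1) (hcur i).1,
          pair_smul_left intAx _ (OmT_mem _).1 (hcur i).1] at h1
        exact add_eq_right.1 h1
      funext i
      simp only [pv, h0, mul_zero, Finset.sum_const_zero, Pi.zero_apply])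
    hε
  have ht : γ z ∈ S.N ∩ W := hball (by rw [dist_zero_right]; exact hz)
  have hφ := S.diffeo (γ z) ht.1
  refine ⟨⟨γ z, S.sub ht.1⟩, ht.2, ?_⟩
  refine elliptic_of_period H (uTrans (S.homeo (γ z) ht.1) hφ U) hev hx hxx ?_
  rw [pair_comb_uTrans _ hφ U hL (H342.lbFacts _) (OmT_mem _).1]
  rw [TS_eq S ht.1] at hp
  exact hp

/-- the lattice data propagate -/
theorem latP_all (hD : IsPreconnected D) (hS : ∀ t₀ : D, Nonempty (SmTriv 𝓕 t₀)) {t₁ : D}
    (h : LatP (𝓕.k3 t₁)) (t : D) : LatP (𝓕.k3 t) := by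
  have := isPreconnected_iff_preconnectedSpace.1 hD
  have hclopen : IsClopen {t : D | LatP (𝓕.k3 t)} := by
    have hloc : ∀ t : D, ∃ W ∈ 𝓝 t, ∀ t' ∈ W, (LatP (𝓕.k3 t) ↔ LatP (𝓕.k3 t')) := by
      intro t
      obtain ⟨S⟩ := hS t
      refine ⟨Subtype.val ⁻¹' S.N, (S.isOpen.preimage continuous_subtype_val).mem_nhds S.mem, ?_⟩
      intro t' ht'
      exact ⟨fun h => h.trans (S.homeo t' ht') (S.diffeo t' ht'),
        fun h => h.trans (S.homeo t' ht').symm (S.diffeo t' ht').symm⟩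
    constructor
    · rw [← isOpen_compl_iff, isOpen_iff_mem_nhds]
      intro t ht
      obtain ⟨W, hW, h⟩ := hloc t
      filter_upwards [hW] with t' ht' h'
      exact ht ((h t' ht').2 h')
    · rw [isOpen_iff_mem_nhds]
      intro t ht
      obtain ⟨W, hW, h⟩ := hloc t
      filter_upwards [hW] with t' ht'
      exact (h t' ht').1 ht
  have h1 : t ∈ {t : D | LatP (𝓕.k3 t)} := by
    rw [hclopen.eq_univ ⟨t₁, h⟩]; exact mem_univ t
  exact h1

/-- the elliptic members are dense -/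
theorem dense_elliptic (H : RRAll) (hS : ∀ t₀ : D, ∃ S : SmTriv 𝓕 t₀, KS S)
    (hlat : ∀ t : D, (∃ v, ¬ InfTrivial 𝓕.F t v) → LatP (𝓕.k3 t))
    (hd : Dense {t : D | ∃ v, ¬ InfTrivial 𝓕.F t v}) : Dense {t : D | Elliptic (𝓕.k3 t)} := by
  rw [dense_iff_inter_open]
  intro O hO hne
  obtain ⟨t₀, htO, v, hv⟩ := hd.inter_open_nonempty O hO hne
  obtain ⟨W, hW, rfl⟩ := isOpen_induced_iff.1 hO
  obtain ⟨S, P⟩ := hS t₀
  obtain ⟨t, htW, ht⟩ := exists_elliptic H S P (hlat t₀ ⟨v, hv⟩) hv (hW.mem_nhds htO)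
  exact ⟨t, htW, ht⟩

end family

/-- **Theorem F2 from its inputs.** -/
theorem target2_of (H : RRAll)
    (hU : ∀ X : All.K3, Elliptic X → ∃ (N : ℕ) (U : UData X.X N), ∀ k, Even (U.B k k))
    (hOka : ∀ X : All.K3, Elliptic X → All.IsOka X.X)
    (hS : ∀ (V : Type) [NormedAddCommGroup V] [NormedSpace ℂ V] [FiniteDimensional ℂ V]
      (D : Set V), IsOpen D → ∀ (E : Type) [TopologicalSpace E] [T2Space E]
      [SecondCountableTopology E] (𝓕 : K3Family V D E) (t₀ : D), ∃ S : SmTriv 𝓕 t₀, KS S) :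
    Target2 := by
  intro V _ _ _ D hD hDc E _ _ _ 𝓕 ⟨t₁, ht₁⟩ hd
  have hS' := hS V D hD E 𝓕
  have hlat : ∀ t, LatP (𝓕.k3 t) := fun t => latP_all hDc
    (fun t₀ => ⟨(hS' t₀).choose⟩) (latP_of_elliptic H ht₁ (hU _ ht₁)) t
  have h1 : Dense {t : D | Elliptic (𝓕.k3 t)} := dense_elliptic H hS' (fun t _ => hlat t) hd
  refine ⟨h1, residual_oka 𝓕.F (fun t => inferInstance) 𝓕.compact (h1.mono fun t ht => ?_)⟩
  exact hOka _ ht

end Vale.Agent.P290.H362
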