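import Vale.Agent.P290.H362.F2KS
import Vale.Agent.P290.H445.Final
import Vale.Agent.P290.H470.SmTriv

/-!
# P290, F2-ASM (helper362): Theorem F2 from the Riemann-Roch block
-/

set_option linter.unusedSectionVars false

open scoped Manifold ContDiff ComplexConjugate Topology
open Set Filter

noncomputable section

namespace Vale.Agent.P290.H362

open Vale.Agent.P267.RR Vale.Agent.P290.H722 Vale.Agent.P290.H95

theorem rrAll_of_rrBlock (h : RRBlock) : RRAll :=
  ⟨fun Y => (h Y.X).1, fun Y => (h Y.X).2.1, fun Y => (h Y.X).2.2.1⟩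

/-- **Smooth trivialisations with the Kodaira-Spencer property.** -/
theorem exists_smTriv_ks {V : Type} [NormedAddCommGroup V] [NormedSpace ℂ V]
    [FiniteDimensional ℂ V] {D : Set V} (hD : IsOpen D) {E : Type} [TopologicalSpace E]
    [T2Space E] [SecondCountableTopology E] (𝓕 : K3Family V D E) (t₀ : D) :
    ∃ S : SmTriv 𝓕 t₀, KS S := by
  obtain ⟨S⟩ := H470.exists_smTriv hD 𝓕 t₀
  exact ⟨S, ks hD S⟩

/-- **Theorem F2 from Riemann-Roch, Serre duality and finiteness on K3 surfaces.** -/
theorem target2_of_rrAll (H : RRAll) : Target2 :=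
  target2_of H (fun X hX => by
    obtain ⟨D⟩ := Vale.Agent.P267.H994.exists_nerveIn X.X
    exact H445.exists_uData X hX H.serre H.rr D)
    (H445.goal H.fin H.serre H.rr)
    fun V _ _ _ D hD E _ _ _ 𝓕 t₀ => exists_smTriv_ks hD 𝓕 t₀

/-- **Theorem F2 from the Riemann-Roch block.** -/
theorem target2_of_rrBlock (h : RRBlock) : Target2 := target2_of_rrAll (rrAll_of_rrBlock h)

end Vale.Agent.P290.H362
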