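import Vale.Agent.P290.H362.F2Asm
import Vale.Agent.P290.H867.P3

/-!
# P290, F2-ASM (helper362): the Kodaira-Spencer input `KS S` from helper867 and helper722
-/

set_option linter.unusedSectionVars false
set_option linter.unusedVariables false

open scoped Manifold ContDiff ComplexConjugate Topology
open Set Filter

noncomputable section

namespace Vale.Agent.P290.H362

open Vale.Agent.P267.FL Vale.Agent.P267.BlockC Vale.Agent.P290.H342
open Vale.Agent.P290.H722 Vale.Agent.P290.H805
open Vale.Agent.P290.H95 Vale.Agent.P290.H686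

variable {V : Type} [NormedAddCommGroup V] [NormedSpace ℂ V] {D : Set V}
  {E : Type} [TopologicalSpace E] [T2Space E] {𝓕 : K3Family V D E} {t₀ : D}

theorem ks (hD : IsOpen D) (S : SmTriv 𝓕 t₀) : KS S := by
  intro v a h
  have h1 : H867.dTh S.T (t₀ : V) v - a • H867.OmF (𝓕.k3 t₀) =
      (dT S.T t₀ v - a • OmT (𝓕.k3 t₀)) - dTb S.T (t₀ : V) v := by
    change H867.dTh S.T (t₀ : V) v - a • OmT (𝓕.k3 t₀) = _
    rw [H867.dTh, dTb]
    module
  obtain ⟨A, hA, hAd⟩ := exact_sub h (S.exact_dTb S.mem v)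
  refine H867.infTrivial_of_dTh hD S S.smFam ?_ v a hA (h1.trans hAd.symm)
  intro s hs p y hy b c
  have h2 := (S.fderiv_repF hs (chart_mem_atlas P267.FL.C2 p) (mem_chart_source P267.FL.C2 p)
    hy).fderiv
  have h3 := S.E2_T hs (chart_mem_atlas P267.FL.C2 p) (mem_chart_source P267.FL.C2 p) hy b c
  rw [h2, val2_eq_E2, h3]
  rfl

end Vale.Agent.P290.H362
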