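import Vale.Agent.P290.H416.K3U
import Vale.Agent.P290.H686.UTrans
import Vale.Agent.P290.H726.Dens4
import Vale.Agent.P290.H103.Pos
import Vale.Agent.P267.H332.Pair.IntAx

/-!
# P290, F2-ASM (helper362): the period vector of a closed form and the density argument
-/

set_option linter.unusedSectionVars false
set_option linter.unusedVariables false

open scoped Manifold ContDiff ComplexConjugate Topology
open Set Filter

noncomputable section

namespace Vale.Agent.P290.H362

open Vale.Agent.P267.FL Vale.Agent.P267.BlockC Vale.Agent.P267.RR Vale.Agent.P267.H332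
open Vale.Agent.P267.H757 Vale.Agent.P267.H469 Vale.Agent.P290.H342 Vale.Agent.P290.H445
open Vale.Agent.P290.H416 Vale.Agent.P290.H726

section gen

variable {Y : Type} [TopologicalSpace Y] [ChartedSpace C2 Y] [IsManifold 𝓘(ℂ, C2) ω Y]
variable [T2Space Y] [CompactSpace Y] {N : ℕ} (U : UData Y N) (hL : LBFacts Y)

omit [IsManifold 𝓘(ℂ, C2) ω Y] [T2Space Y] [CompactSpace Y] in
theorem bil_B (k l : Fin N → ℤ) : bil U.G k l = U.B k l := by
  rw [bil, U.B_apply]
  exact Finset.sum_congr rfl fun i _ => Finset.sum_congr rfl fun j _ => by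
    simp only [Int.cast_id]; ring

include hL in
theorem pair_combC_bil (s t : Fin N → ℂ) : pair (U.combC s) (U.combC t) =
    -(4 * (Real.pi : ℂ) ^ 2) * bil U.G s t := by
  rw [U.pair_combC hL intAx, bil]
  congr 1
  exact Finset.sum_congr rfl fun i _ => Finset.sum_congr rfl fun j _ => by ring

theorem smooth_sub {F G : TwoF Y} (hF : F.Smooth) (hG : G.Smooth) : (F - G).Smooth := by
  have := TwoF_smooth_add hF (TwoF_smooth_smul (-1) hG)
  rwa [neg_one_smul, ← sub_eq_add_neg] at this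

/-- cohomologous forms have the same pairings -/
theorem pair_congr_exact {F F' G : TwoF Y} (hF : F.Smooth) (hF' : F'.Smooth)
    (h : ExactTwo (F - F')) (hG : G ∈ HC Y) : pair F G = pair F' G := by
  have h1 := pair_exact intAx h hG
  have h2 : F = (F - F') + F' := by abel
  rw [h2, pair_add_left intAx (smooth_sub hF hF') hF' hG.1, h1, zero_add]

include hL in
/-- the pairing of two closed forms in coordinates -/
theorem pair_coord {F G : TwoF Y} (hF : F ∈ HC Y) (hG : G ∈ HC Y) {s t : Fin N → ℂ}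
    (hs : ExactTwo (F - U.combC s)) (ht : ExactTwo (G - U.combC t)) :
    pair F G = -(4 * (Real.pi : ℂ) ^ 2) * bil U.G s t := by
  have h1 := U.combC_mem hL s
  have h2 := U.combC_mem hL t
  rw [pair_congr_exact hF.1 h1.1 hs hG, H342.pair_comm, pair_congr_exact hG.1 h2.1 ht h1,
    H342.pair_comm, pair_combC_bil U hL]

theorem pi_ne : -(4 * (Real.pi : ℂ) ^ 2) ≠ 0 := by
  have : (Real.pi : ℂ) ≠ 0 := by exact_mod_cast Real.pi_ne_zero
  simp [this]

/-- the integral inverse Gram matrix solves `G x = P` over `ℂ` -/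
theorem gram_inv (s : Fin N → ℂ) (i : Fin N) :
    ∑ j, ((U.G⁻¹ i j : ℤ) : ℂ) * ∑ k, ((U.G j k : ℤ) : ℂ) * s k = s i := by
  have h1 : U.G⁻¹ * U.G = 1 := Matrix.nonsing_inv_mul _ U.unit
  have h2 : ∀ k, ∑ j, ((U.G⁻¹ i j : ℤ) : ℂ) * ((U.G j k : ℤ) : ℂ) = if i = k then 1 else 0 := by
    intro k
    have h3 := congrFun (congrFun h1 i) k
    rw [Matrix.mul_apply, Matrix.one_apply] at h3
    have h4 := congrArg (fun n : ℤ => (n : ℂ)) h3
    push_cast at h4
    rw [h4]
  calc ∑ j, ((U.G⁻¹ i j : ℤ) : ℂ) * ∑ k, ((U.G j k : ℤ) : ℂ) * s k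
      = ∑ k, (∑ j, ((U.G⁻¹ i j : ℤ) : ℂ) * ((U.G j k : ℤ) : ℂ)) * s k := by
        simp only [Finset.mul_sum, Finset.sum_mul]
        rw [Finset.sum_comm]
        exact Finset.sum_congr rfl fun k _ => Finset.sum_congr rfl fun j _ => by ring
    _ = s i := by simp [h2]

/-- the period vector of a form: `c` with `bil G c l = pair F (comb l)` -/
def pv (F : TwoF Y) (i : Fin N) : ℂ := ∑ j, ((U.G⁻¹ i j : ℤ) : ℂ) * pair F (U.E j).L.curv

include hL in
/-- the period vector in terms of the coordinates of the class -/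
theorem pv_eq {F : TwoF Y} (hF : F ∈ HC Y) {s : Fin N → ℂ} (hs : ExactTwo (F - U.combC s)) :
    pv U F = -(4 * (Real.pi : ℂ) ^ 2) • s := by
  funext i
  have h1 : ∀ j, pair F (U.E j).L.curv = -(4 * (Real.pi : ℂ) ^ 2) *
      ∑ k, ((U.G j k : ℤ) : ℂ) * s k := by
    intro j
    have h2 : (U.E j).L.curv = U.combC (Pi.single j 1) := by
      rw [UData.combC, Finset.sum_eq_single j]
      · simp
      · intro k _ hk
        rw [Pi.single_eq_of_ne hk, zero_smul]
      · intro h
        exact absurd (Finset.mem_univ j) h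
    have h3 : (U.E j).L.curv ∈ HC Y := mem_HC_iff.2 ⟨hL.smooth _, hL.closed _⟩
    have h4 : ExactTwo ((U.E j).L.curv - U.combC (Pi.single j 1)) := by
      rw [← h2, sub_self]; exact exactTwo_zero
    rw [pair_coord U hL hF h3 hs h4, bil]
    congr 1
    refine Finset.sum_congr rfl fun k _ => ?_
    rw [Finset.sum_eq_single j]
    · rw [Pi.single_eq_same, mul_one, U.G_symm k j]
    · intro l _ hl
      rw [Pi.single_eq_of_ne hl, mul_zero]
    · intro h
      exact absurd (Finset.mem_univ j) h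
  rw [pv]
  simp only [h1]
  rw [Pi.smul_apply, smul_eq_mul, ← gram_inv U s i, Finset.mul_sum]
  exact Finset.sum_congr rfl fun j _ => by ring

include hL in
theorem exists_coord {F : TwoF Y} (hF : F ∈ HC Y) : ∃ s, ExactTwo (F - U.combC s) := by
  obtain ⟨t, ht, -⟩ := U.span F hF.1 hF.2.1
  exact ⟨t, ht⟩

include hL in
/-- the pairing of a form with a lattice class -/
theorem pair_comb_pv {F : TwoF Y} (hF : F ∈ HC Y) (k : Fin N → ℤ) :
    pair F (U.comb k) = bil U.G (fun i => ((k i : ℤ) : ℂ)) (pv U F) := by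
  obtain ⟨s, hs⟩ := exists_coord U hL hF
  have h1 : ExactTwo (U.comb k - U.combC fun i => (k i : ℂ)) := by
    rw [UData.comb, sub_self]; exact exactTwo_zero
  rw [pair_coord U hL hF (U.comb_mem hL k) hs h1, pv_eq U hL hF hs, bil_smul_right,
    bil_symm U.G U.G_symm]

include hL in
/-- the square of the period vector -/
theorem bil_pv {F G : TwoF Y} (hF : F ∈ HC Y) (hG : G ∈ HC Y) :
    bil U.G (pv U F) (pv U G) = -(4 * (Real.pi : ℂ) ^ 2) * pair F G := by
  obtain ⟨s, hs⟩ := exists_coord U hL hF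
  obtain ⟨t, ht⟩ := exists_coord U hL hG
  rw [pair_coord U hL hF hG hs ht, pv_eq U hL hF hs, pv_eq U hL hG ht, bil_smul_left,
    bil_smul_right]

include hL in
/-- two forms with the same periods are cohomologous -/
theorem exact_of_pv {F : TwoF Y} (hF : F ∈ HC Y) (h : pv U F = 0) : ExactTwo F := by
  obtain ⟨s, hs⟩ := exists_coord U hL hF
  have h1 := pv_eq U hL hF hs
  rw [h] at h1
  have h2 : s = 0 := (smul_eq_zero.1 h1.symm).resolve_left pi_ne
  rw [h2] at hs
  have h3 : U.combC (0 : Fin N → ℂ) = 0 := by simp [UData.combC]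
  rwa [h3, sub_zero] at hs

/-! ### conjugation -/

variable [ConnectedSpace Y]

theorem exactTwo_bar {F : TwoF Y} (h : ExactTwo F) : ExactTwo F.bar := by
  obtain ⟨A, hA, rfl⟩ := h
  refine ⟨toA (C1L (mk1 A hA)), toA_smooth _, ?_⟩
  have h1 : D1 (C1L (mk1 A hA)) = C2L (D1 (mk1 A hA)) := D1_C _
  have h2 : toF (D1 (C1L (mk1 A hA))) = toF (C2L (D1 (mk1 A hA))) := by rw [h1]
  exact h2

theorem toF_cvC' (t : Fin N → ℂ) : toF (cvC U t) = U.combC t := toF_cvC U t

theorem combC_bar (s : Fin N → ℂ) : (U.combC s).bar = U.combC fun i => -conj (s i) := by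
  have h1 : C2L (cvC U s) = cvC U fun i => -conj (s i) := by
    rw [cvC, cvC, map_sum]
    refine Finset.sum_congr rfl fun i _ => ?_
    rw [LinearMap.map_smulₛₗ, C2L_cv, smul_neg]
    exact (neg_smul (conj (s i)) (cv (U.E i))).symm
  have h2 : toF (C2L (cvC U s)) = (toF (cvC U s)).bar := rfl
  rw [toF_cvC] at h2
  rw [← h2, h1, toF_cvC]

theorem sub_bar (F G : TwoF Y) : (F - G).bar = F.bar - G.bar := by
  apply TwoF.ext
  · funext x
    change conj (F.f02 x - G.f02 x) = conj (F.f02 x) - conj (G.f02 x)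
    rw [map_sub]
  · funext x
    ext i j
    change -conj (F.f11 x j i - G.f11 x j i) = -conj (F.f11 x j i) - -conj (G.f11 x j i)
    rw [map_sub]; ring
  · funext x
    change conj (F.f20 x - G.f20 x) = conj (F.f20 x) - conj (G.f20 x)
    rw [map_sub]

theorem bar_mem {F : TwoF Y} (hF : F ∈ HC Y) : F.bar ∈ HC Y := by
  have h1 : toF (C2L (mk2 F hF.1)) = F.bar := rfl
  rw [← h1]
  refine mem_HC_iff.2 ⟨toF_smooth _, ?_⟩
  have h2 : (toF (mk2 F hF.1)).Closed := hF.2.1
  obtain ⟨h3, h4⟩ := h2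
  have h5 : toF (C2L (mk2 F hF.1)) = cjF (toF (mk2 F hF.1)) := rfl
  rw [h5]
  have e1 : (toF (mk2 F hF.1)).d21 = 0 := by funext x j; exact h3 x j
  have e2 : (toF (mk2 F hF.1)).d12 = 0 := by funext x j; exact h4 x j
  refine ⟨fun x j => ?_, fun x j => ?_⟩
  · rw [d21_cj, e2]; simp [cj1]
  · rw [d12_cj, e1]; simp [cj1]

include hL in
theorem pv_bar {F : TwoF Y} (hF : F ∈ HC Y) : pv U F.bar = fun i => -conj (pv U F i) := by
  obtain ⟨s, hs⟩ := exists_coord U hL hF
  have h1 := exactTwo_bar hs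
  rw [sub_bar, combC_bar] at h1
  rw [pv_eq U hL (bar_mem hF) h1, pv_eq U hL hF hs]
  funext i
  simp only [Pi.smul_apply, smul_eq_mul, map_mul, map_neg, map_pow, Complex.conj_ofReal,
    map_ofNat]
  ring

include hL in
/-- the hermitian square of the period vector -/
theorem bil_pv_conj {F : TwoF Y} (hF : F ∈ HC Y) :
    bil U.G (pv U F) (fun i => conj (pv U F i)) = (4 * (Real.pi : ℂ) ^ 2) * pair F F.bar := by
  have h1 := bil_pv U hL hF (bar_mem hF)
  have h2 : (fun i => conj (pv U F i)) = -pv U F.bar := by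
    rw [pv_bar U hL hF]; funext i; simp
  rw [h2, bil_neg_right, h1]
  ring

end gen

/-! ### the density argument -/

section dens

variable {Y : Type} [TopologicalSpace Y] [ChartedSpace C2 Y] [IsManifold 𝓘(ℂ, C2) ω Y]
variable [T2Space Y] [CompactSpace Y] [ConnectedSpace Y] {N : ℕ} (U : UData Y N) (hL : LBFacts Y)

/-- an isotropic integral class and three integral classes with positive definite Gram matrix -/
structure PosIso (G : Matrix (Fin N) (Fin N) ℤ) : Prop where
  iso : ∃ e : Fin N → ℤ, e ≠ 0 ∧ bil G e e = 0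
  pos : ∃ x : Fin 3 → Fin N → ℤ, ∀ a : Fin 3 → ℝ, a ≠ 0 →
    0 < ∑ k, ∑ l, a k * a l * ((bil G (x k) (x l) : ℤ) : ℝ)

include hL in
/-- **The density argument.** `T λ` a family of closed forms with `T ∧ T = 0`, `T ∧ conj T > 0`,
holomorphic periods, whose derivative at `0` is not proportional to its value: there are arbitrarily
small `λ` for which an isotropic integral class has period zero. -/
theorem dens_form (hG : PosIso U.G) (T : ℂ → TwoF Y) (hT : ∀ᶠ z in 𝓝 (0 : ℂ), T z ∈ HC Y)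
    (h0 : ∀ᶠ z in 𝓝 (0 : ℂ), pair (T z) (T z) = 0) (hpos : 0 < (pair (T 0) (T 0).bar).re)
    (hd : ∀ i, ∀ᶠ z in 𝓝 (0 : ℂ), DifferentiableAt ℂ (fun z => pair (T z) (U.E i).L.curv) z)
    (hne : ∀ a : ℂ, ∃ i, deriv (fun z => pair (T z) (U.E i).L.curv) 0 ≠
      a * pair (T 0) (U.E i).L.curv) {ε : ℝ} (hε : 0 < ε) :
    ∃ z : ℂ, ‖z‖ < ε ∧ T z ∈ HC Y ∧ ∃ x : Fin N → ℤ, x ≠ 0 ∧ U.B x x = 0 ∧
      pair (T z) (U.comb x) = 0 := by
  classical
  obtain ⟨⟨e, he, hee⟩, x, hx⟩ := hG
  have hdd : ∀ᶠ z in 𝓝 (0 : ℂ), ∀ i, DifferentiableAt ℂ (fun z => pair (T z) (U.E i).L.curv) z :=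
    eventually_all.2 hd
  have hc : ∀ᶠ z in 𝓝 (0 : ℂ), DifferentiableAt ℂ (fun z => pv U (T z)) z := by
    filter_upwards [hdd] with z hz
    refine differentiableAt_pi.2 fun i => ?_
    refine DifferentiableAt.fun_sum fun j _ => ?_
    exact (hz j).const_mul _
  have hcc : ∀ᶠ z in 𝓝 (0 : ℂ), bil U.G (pv U (T z)) (pv U (T z)) = 0 := by
    filter_upwards [hT, h0] with z hz hz'
    rw [bil_pv U hL hz hz, hz', mul_zero]
  have hp : 0 < (bil U.G (pv U (T 0)) (fun i => conj (pv U (T 0) i))).re := by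
    rw [bil_pv_conj U hL hT.self_of_nhds]
    have h1 : (4 * (Real.pi : ℂ) ^ 2) = ((4 * Real.pi ^ 2 : ℝ) : ℂ) := by push_cast; ring
    rw [h1, Complex.re_ofReal_mul]
    have := Real.pi_pos
    positivity
  have hdv : ∀ a : ℂ, deriv (fun z => pv U (T z)) 0 ≠ a • pv U (T 0) := by
    intro a ha
    obtain ⟨i, hi⟩ := hne a
    apply hi
    have h1 : ∀ j, HasDerivAt (fun z => pair (T z) (U.E j).L.curv)
        (deriv (fun z => pair (T z) (U.E j).L.curv) 0) 0 := fun j =>
      (hdd.self_of_nhds j).hasDerivAt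
    -- the derivative of the period vector
    have h2 : HasDerivAt (fun z => pv U (T z)) (fun k => ∑ j, ((U.G⁻¹ k j : ℤ) : ℂ) *
        deriv (fun z => pair (T z) (U.E j).L.curv) 0) 0 := by
      refine hasDerivAt_pi.2 fun k => ?_
      exact HasDerivAt.fun_sum fun j _ => (h1 j).const_mul _
    rw [h2.deriv] at ha
    -- multiply with `G`
    have h3 : ∀ (P : Fin N → ℂ), ∑ k, ((U.G i k : ℤ) : ℂ) * ∑ j, ((U.G⁻¹ k j : ℤ) : ℂ) * P j =
        P i := by
      intro P
      have k1 : U.G * U.G⁻¹ = 1 := Matrix.mul_nonsing_inv _ U.unit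
      have k2 : ∀ j, ∑ k, ((U.G i k : ℤ) : ℂ) * ((U.G⁻¹ k j : ℤ) : ℂ) =
          if i = j then 1 else 0 := by
        intro j
        have k3 := congrFun (congrFun k1 i) j
        rw [Matrix.mul_apply, Matrix.one_apply] at k3
        have k4 := congrArg (fun n : ℤ => (n : ℂ)) k3
        push_cast at k4
        rw [k4]
      calc ∑ k, ((U.G i k : ℤ) : ℂ) * ∑ j, ((U.G⁻¹ k j : ℤ) : ℂ) * P j
          = ∑ j, (∑ k, ((U.G i k : ℤ) : ℂ) * ((U.G⁻¹ k j : ℤ) : ℂ)) * P j := by
            simp only [Finset.mul_sum, Finset.sum_mul]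
            rw [Finset.sum_comm]
            exact Finset.sum_congr rfl fun k _ => Finset.sum_congr rfl fun j _ => by ring
        _ = P i := by simp [k2]
    rw [← h3 fun j => deriv (fun z => pair (T z) (U.E j).L.curv) 0]
    have h4 : ∀ k, ∑ j, ((U.G⁻¹ k j : ℤ) : ℂ) * deriv (fun z => pair (T z) (U.E j).L.curv) 0 =
        a * ∑ j, ((U.G⁻¹ k j : ℤ) : ℂ) * pair (T 0) (U.E j).L.curv := fun k => congrFun ha k
    rw [← h3 fun j => pair (T 0) (U.E j).L.curv, Finset.mul_sum]
    exact Finset.sum_congr rfl fun k _ => by rw [h4 k]; ring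
  -- shrink
  obtain ⟨δ, hδ, hT'⟩ := Metric.eventually_nhds_iff.1 hT
  obtain ⟨z, hz, y, hy, hyy, hyc⟩ := dens U.G U.G_symm (fun x hx => U.nondeg x fun y => by
      rw [← bil_B]; exact hx y) e he hee x hx (fun z => pv U (T z)) 0 hc hcc hp hdv
    (min ε δ) (lt_min hε hδ)
  rw [sub_zero] at hz
  have hTz : T z ∈ HC Y := hT' (by rw [dist_zero_right]; exact lt_of_lt_of_le hz (min_le_right _ _))
  refine ⟨z, lt_of_lt_of_le hz (min_le_left _ _), hTz, y, hy, by rw [← bil_B]; exact hyy, ?_⟩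
  rw [pair_comb_pv U hL hTz]
  exact hyc

end dens

end Vale.Agent.P290.H362
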