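import Vale.Agent.P290.H362.F2Asm
import Vale.Agent.P290.H329.Rank
import Vale.Agent.P290.H416.UniF

/-!
# P290, F3-HI (helper362): the lattice of a K3 surface with a third positive class

From the even unimodular lattice `U`, a closed real two-form `Ψ` with `∫ Ω ∧ Ψ = 0`, `∫ Ψ ∧ Ψ > 0`
and the theorem on indefinite unimodular forms: an isotropic class and three positive classes.
-/

set_option linter.unusedSectionVars false
set_option linter.unusedVariables false

open scoped Manifold ContDiff ComplexConjugate Topology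
open Set Filter

noncomputable section

namespace Vale.Agent.P290.H362

open Vale.Agent.P267.FL Vale.Agent.P267.BlockC Vale.Agent.P267.RR Vale.Agent.P267.H332
open Vale.Agent.P267.H757 Vale.Agent.P267.H469 Vale.Agent.P290.H342 Vale.Agent.P290.H445
open Vale.Agent.P290.H416 Vale.Agent.P290.H726 Vale.Agent.P290.H722 Vale.Agent.P290.H805
open Vale.Agent.P290.H95 Vale.Agent.P290.H686

variable {Z : All.K3}

theorem bar_of_real {F : TwoF Z.X} (h : F.Real) : F.bar = F := by
  apply TwoF.ext
  · funext x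
    exact ((h x).1).symm
  · funext x
    ext i j
    change -conj (F.f11 x j i) = F.f11 x i j
    exact ((h x).2 j i).symm
  · funext x
    change conj (F.f20 x) = F.f02 x
    rw [(h x).1, Complex.conj_conj]

theorem real_of_bar {F : TwoF Z.X} (h : F.bar = F) : F.Real := by
  intro x
  refine ⟨?_, fun i j => ?_⟩
  · have h1 := congrFun (congrArg TwoF.f20 h) x
    exact h1.symm
  · have h1 := congrFun (congrFun (congrFun (congrArg TwoF.f11 h) x) j) i
    exact h1.symm

/-- **Hodge index** for closed real forms. -/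
theorem hodge_form (hS : H02 Z) {P F : TwoF Z.X} (hP : P ∈ HC Z.X) (hPr : P.Real)
    (hPO : pair (OmT Z) P = 0) (hPP : 0 < (pair P P).re) (hF : F ∈ HC Z.X) (hFr : F.Real)
    (hFO : pair (OmT Z) F = 0) (hFP : pair F P = 0) :
    (pair F F).re ≤ 0 ∧ (0 ≤ (pair F F).re → ExactTwo F) := by
  obtain ⟨g, hg⟩ := exists_isHerm Z.X
  set C := calc0 hg with hC
  have hI : ∀ A B : Om2 Z.X, C.I22 A B = pair (toF A) (toF B) := fun A B => I22_eq hg A B
  have hex : ∀ G : TwoF Z.X, G ∈ HC Z.X → G.Real → pair (OmT Z) G = 0 → ∃ (G0 : Om2 Z.X)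
      (a : Om1 Z.X), toF G0 = G ∧ C.d2 G0 = 0 ∧ C.c2 G0 = G0 ∧ C.is11 (G0 - C.d1 a) ∧
        C.c1 a = a := by
    intro G hG hGr hGO
    refine ⟨mk2 G hG.1, ?_⟩
    have h1 : C.c2 (mk2 G hG.1) = mk2 G hG.1 := real_iff.2 (show (toF (mk2 G hG.1)).Real from hGr)
    have h2 : C.I22 (mk2 G hG.1) (OmL Z) = 0 := by
      rw [hI, H342.pair_comm]
      exact hGO
    have h3 : C.I22 (mk2 G hG.1) (C.c2 (OmL Z)) = 0 := by
      have h4 := C.I22_conj (mk2 G hG.1) (OmL Z)
      rw [h1, h2, map_zero] at h4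
      exact h4
    obtain ⟨a, ha, har⟩ := exists_11' (C := C) (Om := OmL Z) rfl
      (fun b hb h0 => hS.abs hg b hb h0) h2 h3
    exact ⟨a, rfl, closed_iff.2 hG.2.1, h1, ha, har h1⟩
  obtain ⟨P0, a, rfl, hPd, hPc, hP11, ha⟩ := hex P hP hPr hPO
  obtain ⟨F0, b, rfl, hFd, hFc, hF11, hb⟩ := hex F hF hFr hFO
  have hdd : ∀ (G0 : Om2 Z.X) (a : Om1 Z.X), C.d2 G0 = 0 → C.d2 (G0 - C.d1 a) = 0 := by
    intro G0 a h
    rw [map_sub, h, C.d2d1, sub_zero]
  have hcc : ∀ (G0 : Om2 Z.X) (a : Om1 Z.X), C.c2 G0 = G0 → C.c1 a = a →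
      C.c2 (G0 - C.d1 a) = G0 - C.d1 a := by
    intro G0 a h h'
    rw [map_sub, h, ← C.d1c, h']
  have hp : ∀ (G G' : Om2 Z.X) (a a' : Om1 Z.X), C.d2 G = 0 → C.d2 G' = 0 →
      C.I22 (G - C.d1 a) (G' - C.d1 a') = pair (toF G) (toF G') := by
    intro G G' a a' h h'
    rw [I22_sub_exact (hdd G' a' h'), I22_sub_exact' h, hI]
  obtain ⟨h1, h2⟩ := (scal0 hg).hodge_pos hP11 (hcc P0 a hPc ha) (hdd P0 a hPd)
    (by rw [hp _ _ _ _ hPd hPd]; exact hPP) hF11 (hcc F0 b hFc hb) (hdd F0 b hFd)
    (by rw [hp _ _ _ _ hFd hPd]; exact hFP)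
  rw [hp _ _ _ _ hFd hFd] at h1 h2
  refine ⟨h1, fun h => ?_⟩
  obtain ⟨c, hc⟩ := h2 h
  refine exact_iff_D1.2 ⟨c + b, ?_⟩
  have h3 : D1 c = F0 - D1 b := hc.symm
  rw [map_add, h3]
  abel

theorem bil_ofReal' {N : ℕ} (M : Matrix (Fin N) (Fin N) ℤ) (x y : Fin N → ℝ) :
    H726.bil M (fun i => ((x i : ℝ) : ℂ)) (fun i => ((y i : ℝ) : ℂ)) = ((H726.bil M x y : ℝ) : ℂ) :=
  H726.bil_ofReal M x y

/-- **F3-HI.** -/
theorem latP_of_psi (hS : H02 Z) {N : ℕ} (U : UData Z.X N) (hev : ∀ k, Even (U.B k k))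
    {P : TwoF Z.X} (hPs : P.Smooth) (hPc : P.Closed) (hPr : P.Real)
    (hPO : pair (OmT Z) P = 0) (hPP : 0 < (pair P P).re) : LatP Z := by
  have hL := H342.lbFacts Z.X
  have hP : P ∈ HC Z.X := mem_HC_iff.2 ⟨hPs, hPc⟩
  have hO := OmT_mem Z
  set c : Fin N → ℂ := pv U (OmT Z) with hc
  set w : Fin N → ℝ := fun i => (pv U P i).im with hw
  have hpi := Real.pi_pos
  have hPw : pv U P = Complex.I • fun i => ((w i : ℝ) : ℂ) := by
    have h1 := pv_bar U hL hP
    rw [bar_of_real hPr] at h1
    funext i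
    have h2 := congrFun h1 i
    have h3 : (pv U P i).re = 0 := by
      have h4 := congrArg Complex.re h2
      rw [Complex.neg_re, Complex.conj_re] at h4
      linarith
    rw [Pi.smul_apply, smul_eq_mul, hw]
    apply Complex.ext
    · simp [h3]
    · simp
  have hww : 0 < H726.bil U.G w w := by
    have h1 := bil_pv U hL hP hP
    rw [hPw, bil_smul_left, bil_smul_right, bil_ofReal', ← mul_assoc, Complex.I_mul_I] at h1
    have h2 := congrArg Complex.re h1
    have h3 : -(4 * (Real.pi : ℂ) ^ 2) = ((-(4 * Real.pi ^ 2) : ℝ) : ℂ) := by push_cast; ring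
    rw [h3, Complex.re_ofReal_mul, neg_one_mul, Complex.neg_re, Complex.ofReal_re] at h2
    have h4 : 0 < 4 * Real.pi ^ 2 * (pair P P).re := by positivity
    linarith
  have hcw : H726.bil U.G c (fun i => ((w i : ℝ) : ℂ)) = 0 := by
    have h1 := bil_pv U hL hO hP
    rw [hPO, mul_zero, hPw, bil_smul_right] at h1
    exact (mul_eq_zero.1 h1).resolve_left Complex.I_ne_zero
  have hcc : H726.bil U.G c c = 0 := by
    rw [hc, bil_pv U hL hO hO, pair_OmT_self, mul_zero]
  have hcb : 0 < (H726.bil U.G c (fun i => conj (c i))).re := by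
    rw [hc, bil_pv_conj U hL hO]
    have h1 : (4 * (Real.pi : ℂ) ^ 2) = ((4 * Real.pi ^ 2 : ℝ) : ℂ) := by push_cast; ring
    rw [h1, Complex.re_ofReal_mul]
    have := pair_OmT_bar_pos Z
    positivity
  set p : Fin N → ℝ := fun i => (c i).re with hp
  set q : Fin N → ℝ := fun i => (c i).im with hq
  -- orthogonality
  have hsym : ∀ x y : Fin N → ℝ, H726.bil U.G x y = H726.bil U.G y x :=
    fun x y => H726.bil_symm U.G U.G_symm x y
  have e1 := H103.bil_re_im U.G c c
  rw [hcc] at e1
  have e2 := H103.bil_re_im U.G c (fun i => conj (c i))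
  have e3 := H103.bil_re_im U.G c (fun i => ((w i : ℝ) : ℂ))
  rw [hcw] at e3
  simp only [Complex.conj_re, Complex.conj_im, Complex.ofReal_re, Complex.ofReal_im] at e1 e2 e3
  have hz : ∀ x : Fin N → ℝ, H726.bil U.G x (fun _ => (0 : ℝ)) = 0 := fun x =>
    H726.bil_zero_right U.G x
  have hn : ∀ x : Fin N → ℝ, H726.bil U.G x (fun i => -(c i).im) = -H726.bil U.G x q := fun x =>
    H726.bil_neg_right U.G x q
  have e1r := congrArg Complex.re e1
  have e1i := congrArg Complex.im e1
  have e2r := congrArg Complex.re e2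
  have e3r := congrArg Complex.re e3
  have e3i := congrArg Complex.im e3
  simp only [Complex.add_re, Complex.mul_re, Complex.ofReal_re, Complex.ofReal_im, Complex.I_re,
    Complex.I_im, Complex.add_im, Complex.mul_im, Complex.zero_re, Complex.zero_im, mul_zero,
    mul_one, sub_zero, add_zero, zero_add, hz, hn] at e1r e1i e2r e3r e3i
  rw [e2r] at hcb
  have epq : H726.bil U.G p q = 0 := by
    have h1 := hsym p q
    change 0 = H726.bil U.G p q + H726.bil U.G q p at e1i
    linarith
  have epp : 0 < H726.bil U.G p p := by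
    change 0 = H726.bil U.G p p - H726.bil U.G q q at e1r
    change 0 < H726.bil U.G p p - -H726.bil U.G q q at hcb
    linarith
  have eqq : 0 < H726.bil U.G q q := by
    change 0 = H726.bil U.G p p - H726.bil U.G q q at e1r
    linarith
  have epw : H726.bil U.G p w = 0 := e3r.symm
  have eqw : H726.bil U.G q w = 0 := e3i.symm
  -- three positive classes
  set v : Fin 3 → Fin N → ℝ := ![p, q, w] with hv
  have hpos : ∀ i, 0 < H726.bil U.G (v i) (v i) := by
    intro i
    fin_cases i
    · exact epp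
    · exact eqq
    · exact hww
  have hort : ∀ i j, i ≠ j → H726.bil U.G (v i) (v j) = 0 := by
    intro i j hij
    fin_cases i <;> fin_cases j
    · exact absurd rfl hij
    · exact epq
    · exact epw
    · exact (hsym q p).trans epq
    · exact absurd rfl hij
    · exact eqw
    · exact (hsym w p).trans epw
    · exact (hsym w q).trans eqw
    · exact absurd rfl hij
  have hevG : ∀ i, Even (U.G i i) := by
    intro i
    have h1 := hev (Pi.single i 1)
    rw [← bil_B] at h1
    have h2 : H726.bil U.G (Pi.single i (1 : ℤ)) (Pi.single i (1 : ℤ)) = U.G i i := by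
      rw [H726.bil, Finset.sum_eq_single i, Finset.sum_eq_single i]
      · simp
      · intro j _ hj
        rw [Pi.single_eq_of_ne hj, mul_zero]
      · intro h
        exact absurd (Finset.mem_univ i) h
      · intro j _ hj
        exact Finset.sum_eq_zero fun k _ => by rw [Pi.single_eq_of_ne hj, mul_zero, zero_mul]
      · intro h
        exact absurd (Finset.mem_univ i) h
    rwa [h2] at h1
  have hN := H329.rank_ge_four U.G U.G_symm hevG U.unit v hpos hort
  obtain ⟨x, hx, hxv⟩ := H329.exists_orth U.G hN v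
  have hpx : H726.bil U.G p x = 0 := hxv 0
  have hqx : H726.bil U.G q x = 0 := hxv 1
  have hwx : H726.bil U.G w x = 0 := hxv 2
  -- the negative class
  have hxneg : H726.bil U.G x x < 0 := by
    set s : Fin N → ℂ := Complex.I • fun i => ((x i : ℝ) : ℂ) with hs
    have hF : U.combC s ∈ HC Z.X := U.combC_mem hL s
    have hFb : (U.combC s).bar = U.combC s := by
      rw [combC_bar]
      congr 1
      funext i
      simp [hs]
    have h0 : ExactTwo (U.combC s - U.combC s) := by rw [sub_self]; exact exactTwo_zero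
    have hpv : pv U (U.combC s) = -(4 * (Real.pi : ℂ) ^ 2) • s := pv_eq U hL hF h0
    have hcx : H726.bil U.G c (fun i => ((x i : ℝ) : ℂ)) = 0 := by
      rw [H103.bil_re_im]
      simp only [Complex.ofReal_re, Complex.ofReal_im, hz, sub_zero, zero_add]
      change ((H726.bil U.G p x : ℝ) : ℂ) + ((H726.bil U.G q x : ℝ) : ℂ) * Complex.I = 0
      rw [hpx, hqx]
      simp
    have hFO : pair (OmT Z) (U.combC s) = 0 := by
      have h1 := bil_pv U hL hO hF
      rw [hpv, H726.bil_smul_right, hs, H726.bil_smul_right, hcx, mul_zero, mul_zero] at h1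
      exact (mul_eq_zero.1 h1.symm).resolve_left pi_ne
    have hFP : pair (U.combC s) P = 0 := by
      have h1 := bil_pv U hL hP hF
      rw [hpv, hPw, H726.bil_smul_right, hs, H726.bil_smul_right, H726.bil_smul_left,
        bil_ofReal', hwx, Complex.ofReal_zero, mul_zero, mul_zero, mul_zero] at h1
      rw [H342.pair_comm]
      exact (mul_eq_zero.1 h1.symm).resolve_left pi_ne
    have hFF : pair (U.combC s) (U.combC s) =
        ((4 * Real.pi ^ 2 * H726.bil U.G x x : ℝ) : ℂ) := by
      rw [pair_coord U hL hF hF h0 h0, hs, H726.bil_smul_left, H726.bil_smul_right, bil_ofReal',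
        ← mul_assoc Complex.I, Complex.I_mul_I]
      push_cast
      ring
    obtain ⟨h1, h2⟩ := hodge_form hS hP hPr hPO hPP hF (real_of_bar hFb) hFO hFP
    rw [hFF, Complex.ofReal_re] at h1 h2
    have h4 : 0 < 4 * Real.pi ^ 2 := by positivity
    rcases lt_trichotomy (H726.bil U.G x x) 0 with h | h | h
    · exact h
    · exfalso
      have hex := h2 (by rw [h, mul_zero])
      have h5' : pv U (U.combC s) = 0 := by
        funext i
        have h8 : ∀ j, pair (U.combC s) (U.E j).L.curv = 0 := fun j =>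
          pair_exact intAx hex (mem_HC_iff.2 ⟨hL.smooth _, hL.closed _⟩)
        simp only [pv, h8, mul_zero, Finset.sum_const_zero, Pi.zero_apply]
      rw [hpv] at h5'
      have h5 : s = 0 := (smul_eq_zero.1 h5').resolve_left pi_ne
      apply hx
      funext i
      have h6 := congrFun h5 i
      rw [hs, Pi.smul_apply, smul_eq_mul, Pi.zero_apply] at h6
      have h7 := (mul_eq_zero.1 h6).resolve_left Complex.I_ne_zero
      exact_mod_cast h7
    · exfalso
      have := mul_pos h4 h
      linarith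
  -- the isotropic class
  have hbil : ∀ y : Fin N → ℝ, ∑ i, ∑ j, y i * (U.G i j : ℝ) * y j = H726.bil U.G y y := by
    intro y
    exact Finset.sum_congr rfl fun i _ => Finset.sum_congr rfl fun j _ => by ring
  obtain ⟨e, he, hee⟩ := H416.Uni.isotropic_of_unimodular U.G
    (by ext i j; exact (U.G_symm j i)) U.unit w x (by rw [hbil]; exact hww)
    (by rw [hbil]; exact hxneg)
  refine ⟨N, U, hev, ⟨e, he, ?_⟩, ?_⟩
  · rw [← hee]
    exact Finset.sum_congr rfl fun i _ => Finset.sum_congr rfl fun j _ => by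
      simp only [Int.cast_id]; ring
  · obtain ⟨m, hm, hm'⟩ : ∃ m : ℝ, 0 < m ∧ ∀ k, m ≤ H726.bil U.G (v k) (v k) := by
      refine ⟨min (H726.bil U.G (v 0) (v 0)) (min (H726.bil U.G (v 1) (v 1))
        (H726.bil U.G (v 2) (v 2))), lt_min (hpos 0) (lt_min (hpos 1) (hpos 2)), ?_⟩
      intro k
      fin_cases k
      · exact min_le_left _ _
      · exact (min_le_right _ _).trans (min_le_left _ _)
      · exact (min_le_right _ _).trans (min_le_right _ _)
    exact H103.exists_int_of_real U.G v hm hm' hort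

end Vale.Agent.P290.H362
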