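import Vale.Agent.P290.H362.F2Final
import Vale.Agent.P290.H362.F3Lat
import Vale.Agent.P290.H722.IntFam

/-!
# P290, F3-ASM (helper362): Theorem F3

Elliptic members are dense, and the Oka members residual, in every family of K3 surfaces which is
infinitesimally trivial in all directions only for a set of parameters with dense complement.
-/

set_option linter.unusedSectionVars false

open scoped Manifold ContDiff ComplexConjugate Topology
open Set Filter

noncomputable section

namespace Vale.Agent.P290.H362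

open Vale.Agent.P267.FL Vale.Agent.P267.BlockC Vale.Agent.P267.RR Vale.Agent.P290.H342
open Vale.Agent.P290.H722 Vale.Agent.P290.H805 Vale.Agent.P290.H95

/-- **Target of Phase 3.** In a holomorphic family of K3 surfaces which is infinitesimally trivial
in all directions only for a set of parameters with dense complement, the elliptic members are dense
and the Oka members form a residual set. -/
def Target3 : Prop :=
  ∀ (V : Type) [NormedAddCommGroup V] [NormedSpace ℂ V] [FiniteDimensional ℂ V] (D : Set V),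
    IsOpen D → ∀ (E : Type) [TopologicalSpace E] [T2Space E]
    [SecondCountableTopology E] (𝓕 : K3Family V D E),
    Dense {t : D | ∃ v, ¬ InfTrivial 𝓕.F t v} →
    Dense {t : D | Elliptic (𝓕.k3 t)} ∧ {t : D | All.IsOka (Fib 𝓕.F t)} ∈ residual D

/-- the output of F3-GAUD (helper158) -/
def PsiStmt (X : All.K3) : Prop :=
  ∃ P : TwoF X.X, P.Smooth ∧ P.Closed ∧ P.Real ∧ pair (OmT X) P = 0 ∧ 0 < (pair P P).re

/-- the lattice of a member with a nonzero Kodaira-Spencer class -/
theorem latP_of_ks (H : RRAll) (hP : ∀ X : All.K3, PsiStmt X) {V : Type} [NormedAddCommGroup V]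
    [NormedSpace ℂ V] [FiniteDimensional ℂ V] {D : Set V} {E : Type} [TopologicalSpace E]
    [T2Space E] {𝓕 : K3Family V D E} {t₀ : D} (S : SmTriv 𝓕 t₀) (hKS : KS S)
    {v : V} (hv : ¬ InfTrivial 𝓕.F t₀ v) : LatP (𝓕.k3 t₀) := by
  obtain ⟨D'⟩ := Vale.Agent.P267.H994.exists_nerveIn (𝓕.k3 t₀).X
  obtain ⟨N, U, hev⟩ := S.exists_uData v (fun a h => hv (hKS v a h)) H.serre H.rr D'
  obtain ⟨P, h1, h2, h3, h4, h5⟩ := hP (𝓕.k3 t₀)
  exact latP_of_psi (h02 (H.serre (𝓕.k3 t₀))) U hev h1 h2 h3 h4 h5

/-- **Theorem F3 from its inputs.** -/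
theorem target3_of_rrAll (H : RRAll) (hP : ∀ X : All.K3, PsiStmt X) : Target3 := by
  intro V _ _ _ D hD E _ _ _ 𝓕 hd
  have hS : ∀ t₀ : D, ∃ S : SmTriv 𝓕 t₀, KS S := fun t₀ => exists_smTriv_ks hD 𝓕 t₀
  have h1 : Dense {t : D | Elliptic (𝓕.k3 t)} := dense_elliptic H hS
    (fun t ⟨v, hv⟩ => by
      obtain ⟨S, hKS⟩ := hS t
      exact latP_of_ks H hP S hKS hv) hd
  refine ⟨h1, residual_oka 𝓕.F (fun t => inferInstance) 𝓕.compact (h1.mono fun t ht => ?_)⟩
  exact H445.goal H.fin H.serre H.rr _ ht

/-- **Theorem F3 from the Riemann-Roch block.** -/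
theorem target3_of_rrBlock (h : RRBlock) (hP : ∀ X : All.K3, PsiStmt X) : Target3 :=
  target3_of_rrAll (rrAll_of_rrBlock h) hP

end Vale.Agent.P290.H362
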