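import Vale.Agent.P290.H362.F3Final

/-!
# P290, F3 (helper362): from the inputs to the statement of the hand-in
-/

set_option linter.unusedSectionVars false

open scoped Manifold ContDiff Topology
open Set Filter

noncomputable section

namespace Vale.Agent.P290.H362

open Vale.Agent.P267.RR Vale.Agent.P290.H722 Vale.Agent.P290.H805 Vale.Agent.P290.H95

/-- every member with a nonzero Kodaira-Spencer class is a limit of elliptic members -/
theorem subset_closure_elliptic (H : RRAll) (hP : ∀ X : All.K3, PsiStmt X) {V : Type}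
    [NormedAddCommGroup V] [NormedSpace ℂ V] [FiniteDimensional ℂ V] {D : Set V} (hD : IsOpen D)
    {E : Type} [TopologicalSpace E] [T2Space E] [SecondCountableTopology E]
    (𝓕 : K3Family V D E) :
    {t : D | ∃ v, ¬ InfTrivial 𝓕.F t v} ⊆ closure {t : D | Elliptic (𝓕.k3 t)} := by
  rintro t₀ ⟨v, hv⟩
  rw [mem_closure_iff]
  intro O hO ht
  obtain ⟨W, hW, rfl⟩ := isOpen_induced_iff.1 hO
  obtain ⟨S, hKS⟩ := exists_smTriv_ks hD 𝓕 t₀
  obtain ⟨t, htW, hE⟩ := exists_elliptic H S hKS (latP_of_ks H hP S hKS hv) hv (hW.mem_nhds ht)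
  exact ⟨t, htW, hE⟩

theorem hand3 (H : RRAll) (hP : ∀ X : All.K3, PsiStmt X) :
    ∀ (V : Type) [NormedAddCommGroup V] [NormedSpace ℂ V] [FiniteDimensional ℂ V] (D : Set V),
      IsOpen D → ∀ (E : Type) [TopologicalSpace E] [T2Space E] [SecondCountableTopology E]
      (𝓕 : K3Family V D E),
      {t : D | ∃ v, ¬ InfTrivial 𝓕.F t v} ⊆ closure {t : D | Elliptic (𝓕.k3 t)} ∧
      {t : closure {t : D | Elliptic (𝓕.k3 t)} | All.IsOka (Fib 𝓕.F t.1)} ∈
        residual (closure {t : D | Elliptic (𝓕.k3 t)}) ∧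
      (Dense {t : D | ∃ v, ¬ InfTrivial 𝓕.F t v} →
        Dense {t : D | Elliptic (𝓕.k3 t)} ∧ {t : D | All.IsOka (Fib 𝓕.F t)} ∈ residual D) := by
  intro V _ _ _ D hD E _ _ _ 𝓕
  have h1 := subset_closure_elliptic H hP hD 𝓕
  have h2 : ∀ t ∈ {t : D | Elliptic (𝓕.k3 t)}, All.IsOka (Fib 𝓕.F t) := fun t ht =>
    H445.goal H.fin H.serre H.rr _ ht
  refine ⟨h1, residual_closure 𝓕.F (fun t => inferInstance) 𝓕.compact h2, fun hd => ?_⟩
  have h3 : Dense {t : D | Elliptic (𝓕.k3 t)} := by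
    have h4 := closure_mono h1
    rw [closure_closure, hd.closure_eq] at h4
    exact dense_iff_closure_eq.2 (univ_subset_iff.1 h4)
  exact ⟨h3, residual_oka 𝓕.F (fun t => inferInstance) 𝓕.compact (h3.mono h2)⟩

end Vale.Agent.P290.H362
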