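import Vale.Agent.P290.H362.F2Final
import Vale.Agent.P290.H722.IntFam

/-!
# P290, F4 (helper362): the parameters with a nonzero Kodaira-Spencer class are dense as soon as there
is one (connected base), from the change of the base point of a smooth trivialisation and the
converse of the Kodaira-Spencer argument.
-/

set_option linter.unusedSectionVars false
set_option linter.unusedVariables false

open scoped Manifold ContDiff ComplexConjugate Topology
open Set Filter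

noncomputable section

namespace Vale.Agent.P290.H362

open Vale.Agent.P267.FL Vale.Agent.P267.BlockC Vale.Agent.P267.RR Vale.Agent.P290.H342
open Vale.Agent.P290.H722 Vale.Agent.P290.H805 Vale.Agent.P290.H95 Vale.Agent.P290.H686
open Vale.Agent.P290.H445 Vale.Agent.P267.H332 Vale.Agent.P267.H757

section

variable {V : Type} [NormedAddCommGroup V] [NormedSpace ℂ V] {D : Set V}
  {E : Type} [TopologicalSpace E] [T2Space E]

/-- change of the base point of a smooth trivialisation -/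
def Rebase (𝓕 : K3Family V D E) : Prop :=
  ∀ (t₀ t₁ : D) (S : SmTriv 𝓕 t₀) (ht : (t₁ : V) ∈ S.N), ∃ S' : SmTriv 𝓕 t₁, S'.N = S.N ∧
    ∀ s ∈ S.N, S'.T s = pb2 (S.homeo t₁ ht).symm (S.T s)

/-- the converse of the Kodaira-Spencer argument -/
def Conv (𝓕 : K3Family V D E) : Prop :=
  ∀ (t₀ : D) (S : SmTriv 𝓕 t₀) (v : V), InfTrivial 𝓕.F t₀ v →
    ∃ a : ℂ, ExactTwo (dT S.T t₀ v - a • OmT (𝓕.k3 t₀))

variable {𝓕 : K3Family V D E} {t₀ t₁ : D}

/-- the derivative of the periods at `t₁` is proportional to their value -/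
def Prop0 (S : SmTriv 𝓕 t₀) (t : V) : Prop :=
  ∀ v : V, ∃ a : ℂ, ∀ G ∈ HC (𝓕.k3 t₀).X,
    fderiv ℂ (fun s => pair (S.T s) G) t v = a * pair (S.T t) G

theorem mem_HC_pb2 {X Y : All.K3} (φ : X.X ≃ₜ Y.X) (hφ : IsDiffeo φ) {G : TwoF Y.X}
    (hG : G ∈ HC Y.X) : pb2 φ G ∈ HC X.X := by
  have h := mem_HC_iff.1 hG
  exact mem_HC_iff.2 ⟨pb2_smooth hφ.smooth h.1, pb2_closed hφ.smooth h.1 h.2⟩

theorem pair_rebase (S : SmTriv 𝓕 t₀) (ht : (t₁ : V) ∈ S.N) (S' : SmTriv 𝓕 t₁)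
    (hT : ∀ s ∈ S.N, S'.T s = pb2 (S.homeo t₁ ht).symm (S.T s)) {G : TwoF (𝓕.k3 t₀).X}
    (hG : G ∈ HC (𝓕.k3 t₀).X) {s : V} (hs : s ∈ S.N) :
    pair (S'.T s) (pb2 (S.homeo t₁ ht).symm G) = pair (S.T s) G := by
  rw [hT s hs]
  exact pair_pb2 (S.homeo t₁ ht).symm (S.diffeo t₁ ht).symm (S.smooth_T s hs) hG.1

theorem fderiv_rebase (S : SmTriv 𝓕 t₀) (ht : (t₁ : V) ∈ S.N) (S' : SmTriv 𝓕 t₁)
    (hT : ∀ s ∈ S.N, S'.T s = pb2 (S.homeo t₁ ht).symm (S.T s)) {G : TwoF (𝓕.k3 t₀).X}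
    (hG : G ∈ HC (𝓕.k3 t₀).X) (v : V) :
    fderiv ℂ (fun s => pair (S.T s) G) t₁ v =
      pair (dT S'.T t₁ v) (pb2 (S.homeo t₁ ht).symm G) := by
  have h1 : (fun s => pair (S.T s) G) =ᶠ[𝓝 (t₁ : V)]
      fun s => pair (S'.T s) (pb2 (S.homeo t₁ ht).symm G) := by
    filter_upwards [S.isOpen.mem_nhds ht] with s hs
    exact (pair_rebase S ht S' hT hG hs).symm
  rw [h1.fderiv_eq]
  exact S'.fderiv_per S'.mem (mem_HC_pb2 (X := 𝓕.k3 t₁) (Y := 𝓕.k3 t₀) _
    (S.diffeo t₁ ht).symm hG) v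

theorem prop0_of_trivial (hR : Rebase 𝓕) (hC : Conv 𝓕) (S : SmTriv 𝓕 t₀) (ht : (t₁ : V) ∈ S.N)
    (h : ∀ v, InfTrivial 𝓕.F t₁ v) : Prop0 S t₁ := by
  intro v
  obtain ⟨S', hN, hT⟩ := hR t₀ t₁ S ht
  obtain ⟨a, ha⟩ := hC t₁ S' v (h v)
  refine ⟨a, fun G hG => ?_⟩
  have hG' := mem_HC_pb2 (X := 𝓕.k3 t₁) (Y := 𝓕.k3 t₀) _ (S.diffeo t₁ ht).symm hG
  rw [fderiv_rebase S ht S' hT hG, ← pair_rebase S ht S' hT hG ht, TS_base]
  have h1 := pair_congr_exact (S'.mem_HC_dT S'.mem v).1 (TwoF_smooth_smul a (OmT_mem _).1) ha hG'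
  rw [h1, pair_smul_left intAx _ (OmT_mem _).1 hG'.1]

theorem trivial_of_prop0 (hR : Rebase 𝓕) (hD : IsOpen D) (S : SmTriv 𝓕 t₀)
    (ht : (t₁ : V) ∈ S.N) (h : Prop0 S t₁) (v : V) : InfTrivial 𝓕.F t₁ v := by
  obtain ⟨S', hN, hT⟩ := hR t₀ t₁ S ht
  obtain ⟨a, ha⟩ := h v
  obtain ⟨D'⟩ := Vale.Agent.P267.H994.exists_nerveIn (𝓕.k3 t₁).X
  refine ks hD S' v a ?_
  have h1 := S'.mem_HC_dT S'.mem v
  have h2 := OmT_mem (𝓕.k3 t₁)
  have h3 : dT S'.T t₁ v - a • OmT (𝓕.k3 t₁) ∈ HC (𝓕.k3 t₁).X :=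
    Submodule.sub_mem _ h1 (Submodule.smul_mem _ _ h2)
  refine exact_of_periods D' (ff _) h3.1 (mem_HC_iff.1 h3).2 fun n => ?_
  set G' := (D'.L n).L.curv with hG'
  have hG1 : G' ∈ HC (𝓕.k3 t₁).X := mem_HC_iff.2 ⟨(H342.lbFacts (𝓕.k3 t₁).X).smooth _,
    (H342.lbFacts (𝓕.k3 t₁).X).closed _⟩
  set φ := S.homeo t₁ ht with hφ
  have hφd : IsDiffeo φ := S.diffeo t₁ ht
  have hG2 : pb2 φ G' ∈ HC (𝓕.k3 t₀).X :=
    mem_HC_pb2 (X := 𝓕.k3 t₀) (Y := 𝓕.k3 t₁) φ hφd hG1
  have hG3 : pb2 φ.symm (pb2 φ G') = G' := pb2_symm_pb2 φ hφd G'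
  have h4 := fderiv_rebase S ht S' hT hG2 v
  have h5 := pair_rebase S ht S' hT hG2 ht
  rw [← hφ, hG3] at h4 h5
  have h6 : dT S'.T t₁ v = (dT S'.T t₁ v - a • OmT (𝓕.k3 t₁)) + a • OmT (𝓕.k3 t₁) := by abel
  have h7 : pair (dT S'.T t₁ v) G' = a * pair (OmT (𝓕.k3 t₁)) G' := by
    rw [← h4, ha _ hG2, ← h5, TS_base]
  rw [h6, pair_add_left intAx h3.1 (TwoF_smooth_smul _ h2.1) hG1.1,
    pair_smul_left intAx _ h2.1 hG1.1] at h7
  exact add_eq_right.1 h7

/-- the value of a period is nonzero for some class -/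
theorem exists_per_ne (S : SmTriv 𝓕 t₀) {t : V} (ht : t ∈ S.N) :
    ∃ G ∈ HC (𝓕.k3 t₀).X, pair (S.T t) G ≠ 0 := by
  refine ⟨(S.T t).bar, bar_mem (S.mem_HC_T ht), fun h => ?_⟩
  have h1 := pair_TS_bar S ht
  rw [h] at h1
  simp at h1

/-- **The identity theorem for the periods.** -/
theorem prop0_ball (S : SmTriv 𝓕 t₀) {c : V} {r : ℝ} (hU : Metric.ball c r ⊆ S.N) {t₁ : V}
    {ε : ℝ} (hε : 0 < ε) (hO : Metric.ball t₁ ε ⊆ Metric.ball c r)
    (h : ∀ t ∈ Metric.ball t₁ ε, Prop0 S t) : ∀ t ∈ Metric.ball c r, Prop0 S t := by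
  have ht1 : t₁ ∈ Metric.ball c r := hO (Metric.mem_ball_self hε)
  have hdiff : ∀ G ∈ HC (𝓕.k3 t₀).X, ∀ t ∈ S.N,
      DifferentiableAt ℂ (fun s => pair (S.T s) G) t := by
    intro G hG t ht
    obtain ⟨L, hL, -⟩ := S.hasFDerivAt_per ht hG
    exact hL.differentiableAt
  -- the quotients are constant near `t₁`
  obtain ⟨G₀, hG₀, hne⟩ := exists_per_ne S (hU ht1)
  have hcont : ContinuousAt (fun s => pair (S.T s) G₀) t₁ := (hdiff G₀ hG₀ t₁ (hU ht1)).continuousAt
  obtain ⟨δ, hδ, hball⟩ := Metric.eventually_nhds_iff_ball.1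
    ((hcont.eventually_ne hne).and (Metric.ball_mem_nhds t₁ hε))
  have key : ∀ G ∈ HC (𝓕.k3 t₀).X, ∀ t ∈ Metric.ball t₁ δ,
      pair (S.T t) G * pair (S.T t₁) G₀ = pair (S.T t) G₀ * pair (S.T t₁) G := by
    intro G hG
    have hN : ∀ t ∈ Metric.ball t₁ δ, t ∈ S.N := fun t ht => hU (hO (hball t ht).2)
    have hd : ∀ t ∈ Metric.ball t₁ δ,
        HasFDerivAt (fun s => pair (S.T s) G / pair (S.T s) G₀) (0 : V →L[ℂ] ℂ) t := by
      intro t ht
      have h1 := (hdiff G hG t (hN t ht)).hasFDerivAt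
      have h2 := (hdiff G₀ hG₀ t (hN t ht)).hasFDerivAt
      have hne' := (hball t ht).1
      have h2' : HasFDerivAt (fun s => (pair (S.T s) G₀)⁻¹)
          ((-(pair (S.T t) G₀ ^ 2)⁻¹) • fderiv ℂ (fun s => pair (S.T s) G₀) t) t :=
        (hasDerivAt_inv hne').comp_hasFDerivAt t h2
      have h3 := h1.mul h2'
      have h4 : (fun s => pair (S.T s) G / pair (S.T s) G₀) =
          fun s => pair (S.T s) G * (pair (S.T s) G₀)⁻¹ := by
        funext s; rw [div_eq_mul_inv]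
      rw [h4]
      refine h3.congr_fderiv ?_
      ext v
      obtain ⟨a, ha⟩ := h t (hball t ht).2 v
      simp only [_root_.add_apply, _root_.smul_apply, smul_eq_mul, _root_.zero_apply,
        ha G hG, ha G₀ hG₀]
      field_simp
      ring
    have hconst : ∀ t ∈ Metric.ball t₁ δ, pair (S.T t) G / pair (S.T t) G₀ =
        pair (S.T t₁) G / pair (S.T t₁) G₀ := by
      intro t ht
      refine (convex_ball t₁ δ).is_const_of_fderivWithin_eq_zero (𝕜 := ℂ)
        (fun s hs => (hd s hs).differentiableAt.differentiableWithinAt) (fun s hs => ?_) ht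
        (Metric.mem_ball_self hδ)
      rw [((hd s hs).hasFDerivWithinAt).fderivWithin
        ((Metric.isOpen_ball.uniqueDiffWithinAt hs))]
    intro t ht
    have h5 := hconst t ht
    have hne' := (hball t ht).1
    rw [div_eq_div_iff hne' hne] at h5
    linear_combination h5
  -- and on the ball, by the identity theorem on complex lines
  have key2 : ∀ G ∈ HC (𝓕.k3 t₀).X, ∀ t ∈ Metric.ball c r,
      pair (S.T t) G * pair (S.T t₁) G₀ = pair (S.T t) G₀ * pair (S.T t₁) G := by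
    intro G hG t ht
    set γ : ℂ → V := fun z => t₁ + z • (t - t₁) with hγ
    have hγc : Continuous γ := continuous_const.add (continuous_id.smul continuous_const)
    have hγd : ∀ z, DifferentiableAt ℂ γ z := fun z =>
      (differentiableAt_const _).add (differentiableAt_id.smul_const _)
    set W : Set ℂ := γ ⁻¹' Metric.ball c r with hW
    have hWo : IsOpen W := Metric.isOpen_ball.preimage hγc
    have hWc : IsPreconnected W := by
      refine Convex.isPreconnected ?_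
      intro z hz w hw a b ha hb hab
      have h1 : γ (a • z + b • w) = a • γ z + b • γ w := by
        have h2 : (a : ℂ) + b = 1 := by
          rw [← Complex.ofReal_add, hab, Complex.ofReal_one]
        calc γ (a • z + b • w) = ((a : ℂ) + b) • t₁ + ((a : ℂ) * z + b * w) • (t - t₁) := by
              simp only [hγ, Complex.real_smul, h2, one_smul]
          _ = a • γ z + b • γ w := by
              simp only [hγ]
              rw [← Complex.coe_smul a, ← Complex.coe_smul b]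
              module
      change γ (a • z + b • w) ∈ Metric.ball c r
      rw [h1]
      exact convex_ball c r hz hw ha hb hab
    set f : ℂ → ℂ := fun z => pair (S.T (γ z)) G * pair (S.T t₁) G₀ -
      pair (S.T (γ z)) G₀ * pair (S.T t₁) G with hf
    have hfd : DifferentiableOn ℂ f W := by
      intro z hz
      have h1 := (hdiff G hG (γ z) (hU hz)).comp z (hγd z)
      have h2 := (hdiff G₀ hG₀ (γ z) (hU hz)).comp z (hγd z)
      exact ((h1.mul_const _).sub (h2.mul_const _)).differentiableWithinAt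
    have hfa := hfd.analyticOnNhd hWo
    have h0 : (0 : ℂ) ∈ W := by
      change γ 0 ∈ Metric.ball c r
      simp only [hγ, zero_smul, add_zero]
      exact ht1
    have h1 : (1 : ℂ) ∈ W := by
      change γ 1 ∈ Metric.ball c r
      simp only [hγ, one_smul, add_sub_cancel]
      exact ht
    have hev : f =ᶠ[𝓝 0] 0 := by
      have h2 : ∀ᶠ z in 𝓝 (0 : ℂ), γ z ∈ Metric.ball t₁ δ := by
        refine hγc.continuousAt.eventually_mem (Metric.isOpen_ball.mem_nhds ?_)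
        simp only [hγ, zero_smul, add_zero]
        exact Metric.mem_ball_self hδ
      filter_upwards [h2] with z hz
      simp only [hf, Pi.zero_apply]
      exact sub_eq_zero.2 (key G hG (γ z) hz)
    have h3 := hfa.eqOn_zero_of_preconnected_of_eventuallyEq_zero hWc h0 hev h1
    simp only [hf, hγ, one_smul, add_sub_cancel, Pi.zero_apply] at h3
    exact sub_eq_zero.1 h3
  -- conclusion
  intro t ht v
  have hPt : pair (S.T t) G₀ ≠ 0 := by
    intro h0
    obtain ⟨G, hG, hG1⟩ := exists_per_ne S (hU ht)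
    have h1 := key2 G hG t ht
    rw [h0, zero_mul] at h1
    exact hG1 ((mul_eq_zero.1 h1).resolve_right hne)
  refine ⟨fderiv ℂ (fun s => pair (S.T s) G₀) t v / pair (S.T t) G₀, fun G hG => ?_⟩
  have h1 : (fun s => pair (S.T s) G * pair (S.T t₁) G₀) =ᶠ[𝓝 t]
      fun s => pair (S.T s) G₀ * pair (S.T t₁) G := by
    filter_upwards [Metric.isOpen_ball.mem_nhds ht] with s hs
    exact key2 G hG s hs
  have h2 := h1.fderiv_eq (𝕜 := ℂ)
  have d1 := (hdiff G hG t (hU ht)).hasFDerivAt.mul_const (pair (S.T t₁) G₀)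
  have d2 := (hdiff G₀ hG₀ t (hU ht)).hasFDerivAt.mul_const (pair (S.T t₁) G)
  rw [d1.fderiv, d2.fderiv] at h2
  have h3 := congrArg (fun L : V →L[ℂ] ℂ => L v) h2
  simp only [_root_.smul_apply, smul_eq_mul] at h3
  have h4 := key2 G hG t ht
  field_simp
  have h5 : pair (S.T t₁) G₀ * (fderiv ℂ (fun s => pair (S.T s) G) t v * pair (S.T t) G₀) =
      pair (S.T t₁) G₀ * (fderiv ℂ (fun s => pair (S.T s) G₀) t v * pair (S.T t) G) := by
    linear_combination pair (S.T t) G₀ * h3 - fderiv ℂ (fun s => pair (S.T s) G₀) t v * h4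
  have h6 := mul_left_cancel₀ hne h5
  linear_combination h6

/-- **Density of the parameters with a nonzero Kodaira-Spencer class.** -/
theorem dense_ks_of (hR : Rebase 𝓕) (hC : Conv 𝓕) (hD : IsOpen D) (hc : IsPreconnected D)
    (hS : ∀ t₀ : D, Nonempty (SmTriv 𝓕 t₀)) (h : ∃ (t : D) (v : V), ¬ InfTrivial 𝓕.F t v) :
    Dense {t : D | ∃ v, ¬ InfTrivial 𝓕.F t v} := by
  have := isPreconnected_iff_preconnectedSpace.1 hc
  set B : Set D := {t : D | ∀ v, InfTrivial 𝓕.F t v} with hB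
  have hcompl : {t : D | ∃ v, ¬ InfTrivial 𝓕.F t v} = Bᶜ := by
    ext t
    simp [hB]
  have hclosed : IsClosed (interior B) := by
    rw [← closure_subset_iff_isClosed]
    intro t₀ ht₀
    obtain ⟨S⟩ := hS t₀
    obtain ⟨r, hr, hball⟩ := Metric.isOpen_iff.1 S.isOpen (t₀ : V) S.mem
    obtain ⟨t₁, ht₁, ht₁'⟩ := mem_closure_iff.1 ht₀ (Subtype.val ⁻¹' Metric.ball (t₀ : V) r)
      (Metric.isOpen_ball.preimage continuous_subtype_val) (Metric.mem_ball_self hr)
    obtain ⟨W, hW, hWe⟩ := isOpen_induced_iff.1 (isOpen_interior (s := B))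
    have htW : (t₁ : V) ∈ W := by
      have h1 : t₁ ∈ Subtype.val ⁻¹' W := by rw [hWe]; exact ht₁'
      exact h1
    obtain ⟨ε, hε, hεb⟩ := Metric.isOpen_iff.1 (hW.inter Metric.isOpen_ball) (t₁ : V) ⟨htW, ht₁⟩
    have h1 : ∀ t ∈ Metric.ball (t₁ : V) ε, Prop0 S t := by
      intro t ht
      have h2 := hεb ht
      have h3 : (⟨t, S.sub (hball h2.2)⟩ : D) ∈ Subtype.val ⁻¹' W := h2.1
      rw [hWe] at h3
      have h4 := interior_subset h3
      exact prop0_of_trivial (t₁ := ⟨t, S.sub (hball h2.2)⟩) hR hC S (hball h2.2) h4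
    have h5 := prop0_ball S hball hε (fun t ht => (hεb ht).2) h1
    refine mem_interior.2 ⟨Subtype.val ⁻¹' Metric.ball (t₀ : V) r, ?_,
      Metric.isOpen_ball.preimage continuous_subtype_val, Metric.mem_ball_self hr⟩
    intro t ht
    exact trivial_of_prop0 hR hD S (hball ht) (h5 t ht)
  rw [hcompl, ← interior_eq_empty_iff_dense_compl]
  rcases isClopen_iff.1 ⟨hclosed, isOpen_interior⟩ with h1 | h1
  · exact h1
  · exfalso
    obtain ⟨t, v, hv⟩ := h
    have h2 : t ∈ interior B := by rw [h1]; exact mem_univ t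
    exact hv (interior_subset h2 v)

end

end Vale.Agent.P290.H362
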