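import Vale.Agent.P290.H362.F3Hand
import Vale.Agent.P290.H867.DenseKS

/-!
# P290, F4 (helper362): the statement of the hand-in, with the density of the nonzero
Kodaira-Spencer classes (`Vale.Agent.P290.H867.dense_ks`)
-/

set_option linter.unusedSectionVars false

open scoped Manifold ContDiff Topology
open Set Filter

noncomputable section

namespace Vale.Agent.P290.H362

open Vale.Agent.P267.RR Vale.Agent.P290.H722 Vale.Agent.P290.H805 Vale.Agent.P290.H95

theorem hand4 (H : RRAll) (hP : ∀ X : All.K3, PsiStmt X) :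
    ∀ (V : Type) [NormedAddCommGroup V] [NormedSpace ℂ V] [FiniteDimensional ℂ V] (D : Set V),
      IsOpen D → ∀ (E : Type) [TopologicalSpace E] [T2Space E] [SecondCountableTopology E]
      (𝓕 : K3Family V D E),
      {t : D | ∃ v, ¬ InfTrivial 𝓕.F t v} ⊆ closure {t : D | Elliptic (𝓕.k3 t)} ∧
      {t : closure {t : D | Elliptic (𝓕.k3 t)} | All.IsOka (Fib 𝓕.F t.1)} ∈
        residual (closure {t : D | Elliptic (𝓕.k3 t)}) ∧
      (IsPreconnected D → (∃ (t : D) (v : V), ¬ InfTrivial 𝓕.F t v) →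
        Dense {t : D | ∃ v, ¬ InfTrivial 𝓕.F t v} ∧ Dense {t : D | Elliptic (𝓕.k3 t)} ∧
          {t : D | All.IsOka (Fib 𝓕.F t)} ∈ residual D) := by
  intro V _ _ _ D hD E _ _ _ 𝓕
  obtain ⟨h1, h2, h3⟩ := hand3 H hP V D hD E 𝓕
  refine ⟨h1, h2, fun hc h => ?_⟩
  have h4 := Vale.Agent.P290.H867.dense_ks hD hc 𝓕 h
  exact ⟨h4, h3 h4⟩

end Vale.Agent.P290.H362
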